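import Vale.Agent.Lib.P045.Check

namespace Vale.Agent.Lib.P045.R42

def U : Nat := 18446744073709551615

def C73 : List Nat := [nat_lit 0,nat_lit 17,nat_lit 34,nat_lit 51,nat_lit 68,nat_lit 85,nat_lit 4198]
def C117 : List Nat := [nat_lit 0,nat_lit 17,nat_lit 34,nat_lit 51,nat_lit 68,nat_lit 4181,nat_lit 4198]
def C167 : List Nat := [nat_lit 0,nat_lit 17,nat_lit 34,nat_lit 51,nat_lit 68,nat_lit 4181,nat_lit 8294]
def C181 : List Nat := [nat_lit 0,nat_lit 17,nat_lit 34,nat_lit 51,nat_lit 68,nat_lit 4181,nat_lit 358]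
def C183 : List Nat := [nat_lit 0,nat_lit 17,nat_lit 34,nat_lit 51,nat_lit 68,nat_lit 4181]
def C227 : List Nat := [nat_lit 0,nat_lit 17,nat_lit 34,nat_lit 51,nat_lit 4164,nat_lit 4181,nat_lit 4198]
def C277 : List Nat := [nat_lit 0,nat_lit 17,nat_lit 34,nat_lit 51,nat_lit 4164,nat_lit 4181,nat_lit 8294]
def C281 : List Nat := [nat_lit 0,nat_lit 17,nat_lit 34,nat_lit 51,nat_lit 4164,nat_lit 4181,nat_lit 358]
def C283 : List Nat := [nat_lit 0,nat_lit 17,nat_lit 34,nat_lit 51,nat_lit 4164,nat_lit 4181]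
def C344 : List Nat := [nat_lit 0,nat_lit 17,nat_lit 34,nat_lit 51,nat_lit 4164,nat_lit 8277,nat_lit 12390]
def C356 : List Nat := [nat_lit 0,nat_lit 17,nat_lit 34,nat_lit 51,nat_lit 4164,nat_lit 8277,nat_lit 358]
def C358 : List Nat := [nat_lit 0,nat_lit 17,nat_lit 34,nat_lit 51,nat_lit 4164,nat_lit 8277]
def C368 : List Nat := [nat_lit 0,nat_lit 17,nat_lit 34,nat_lit 51,nat_lit 4164,nat_lit 341]
def C370 : List Nat := [nat_lit 0,nat_lit 17,nat_lit 34,nat_lit 51,nat_lit 4164]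
def C424 : List Nat := [nat_lit 0,nat_lit 17,nat_lit 34,nat_lit 4147,nat_lit 4164,nat_lit 4181,nat_lit 8294]
def C478 : List Nat := [nat_lit 0,nat_lit 17,nat_lit 34,nat_lit 4147,nat_lit 4164,nat_lit 8277,nat_lit 8294]
def C537 : List Nat := [nat_lit 0,nat_lit 17,nat_lit 34,nat_lit 4147,nat_lit 4164,nat_lit 8277,nat_lit 12390]
def C542 : List Nat := [nat_lit 0,nat_lit 17,nat_lit 34,nat_lit 4147,nat_lit 4164,nat_lit 8277,nat_lit 358]
def C544 : List Nat := [nat_lit 0,nat_lit 17,nat_lit 34,nat_lit 4147,nat_lit 4164,nat_lit 8277]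
def C551 : List Nat := [nat_lit 0,nat_lit 17,nat_lit 34,nat_lit 4147,nat_lit 4164,nat_lit 341,nat_lit 358]
def C556 : List Nat := [nat_lit 0,nat_lit 17,nat_lit 34,nat_lit 4147,nat_lit 4164,nat_lit 341,nat_lit 614]
def C559 : List Nat := [nat_lit 0,nat_lit 17,nat_lit 34,nat_lit 4147,nat_lit 4164,nat_lit 341]
def C561 : List Nat := [nat_lit 0,nat_lit 17,nat_lit 34,nat_lit 4147,nat_lit 4164]
def C634 : List Nat := [nat_lit 0,nat_lit 17,nat_lit 34,nat_lit 4147,nat_lit 8260,nat_lit 12373,nat_lit 16486]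
def C642 : List Nat := [nat_lit 0,nat_lit 17,nat_lit 34,nat_lit 4147,nat_lit 8260,nat_lit 12373,nat_lit 358]
def C644 : List Nat := [nat_lit 0,nat_lit 17,nat_lit 34,nat_lit 4147,nat_lit 8260,nat_lit 12373]
def C655 : List Nat := [nat_lit 0,nat_lit 17,nat_lit 34,nat_lit 4147,nat_lit 8260,nat_lit 341,nat_lit 614]
def C660 : List Nat := [nat_lit 0,nat_lit 17,nat_lit 34,nat_lit 4147,nat_lit 8260,nat_lit 341]
def C662 : List Nat := [nat_lit 0,nat_lit 17,nat_lit 34,nat_lit 4147,nat_lit 8260]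
def C672 : List Nat := [nat_lit 0,nat_lit 17,nat_lit 34,nat_lit 4147,nat_lit 324]
def C674 : List Nat := [nat_lit 0,nat_lit 17,nat_lit 34,nat_lit 4147]
def C739 : List Nat := [nat_lit 0,nat_lit 17,nat_lit 4130,nat_lit 4147,nat_lit 8260,nat_lit 8277,nat_lit 12390]
def C742 : List Nat := [nat_lit 0,nat_lit 17,nat_lit 4130,nat_lit 4147,nat_lit 8260,nat_lit 8277,nat_lit 8550,nat_lit 562]
def C744 : List Nat := [nat_lit 0,nat_lit 17,nat_lit 4130,nat_lit 4147,nat_lit 8260,nat_lit 8277,nat_lit 8550]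
def C819 : List Nat := [nat_lit 0,nat_lit 17,nat_lit 4130,nat_lit 4147,nat_lit 8260,nat_lit 12373,nat_lit 16486]
def C825 : List Nat := [nat_lit 0,nat_lit 17,nat_lit 4130,nat_lit 4147,nat_lit 8260,nat_lit 12373]
def C831 : List Nat := [nat_lit 0,nat_lit 17,nat_lit 4130,nat_lit 4147,nat_lit 8260,nat_lit 8533,nat_lit 8806]
def C838 : List Nat := [nat_lit 0,nat_lit 17,nat_lit 4130,nat_lit 4147,nat_lit 8260,nat_lit 8533]
def C846 : List Nat := [nat_lit 0,nat_lit 17,nat_lit 4130,nat_lit 4147,nat_lit 8260,nat_lit 4437,nat_lit 4710]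
def C851 : List Nat := [nat_lit 0,nat_lit 17,nat_lit 4130,nat_lit 4147,nat_lit 8260,nat_lit 4437]
def C854 : List Nat := [nat_lit 0,nat_lit 17,nat_lit 4130,nat_lit 4147,nat_lit 8260]
def C865 : List Nat := [nat_lit 0,nat_lit 17,nat_lit 4130,nat_lit 4147,nat_lit 4420,nat_lit 4437]
def C874 : List Nat := [nat_lit 0,nat_lit 17,nat_lit 4130,nat_lit 4147,nat_lit 4420,nat_lit 4693,nat_lit 4966]
def C880 : List Nat := [nat_lit 0,nat_lit 17,nat_lit 4130,nat_lit 4147,nat_lit 4420,nat_lit 4693]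
def C891 : List Nat := [nat_lit 0,nat_lit 17,nat_lit 4130,nat_lit 4147,nat_lit 4420,nat_lit 597]
def C900 : List Nat := [nat_lit 0,nat_lit 17,nat_lit 4130,nat_lit 4147,nat_lit 4420,nat_lit 8533]
def C902 : List Nat := [nat_lit 0,nat_lit 17,nat_lit 4130,nat_lit 4147,nat_lit 4420]
def C914 : List Nat := [nat_lit 0,nat_lit 17,nat_lit 4130,nat_lit 4147,nat_lit 8516,nat_lit 8533]
def C925 : List Nat := [nat_lit 0,nat_lit 17,nat_lit 4130,nat_lit 4147,nat_lit 8516,nat_lit 8789,nat_lit 9062,nat_lit 12870]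
def C927 : List Nat := [nat_lit 0,nat_lit 17,nat_lit 4130,nat_lit 4147,nat_lit 8516,nat_lit 8789,nat_lit 9062]
def C931 : List Nat := [nat_lit 0,nat_lit 17,nat_lit 4130,nat_lit 4147,nat_lit 8516,nat_lit 8789]
def C943 : List Nat := [nat_lit 0,nat_lit 17,nat_lit 4130,nat_lit 4147,nat_lit 8516,nat_lit 12629,nat_lit 16742,nat_lit 8805,nat_lit 13156]
def C945 : List Nat := [nat_lit 0,nat_lit 17,nat_lit 4130,nat_lit 4147,nat_lit 8516,nat_lit 12629,nat_lit 16742,nat_lit 8805]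
def C947 : List Nat := [nat_lit 0,nat_lit 17,nat_lit 4130,nat_lit 4147,nat_lit 8516,nat_lit 12629,nat_lit 16742]
def C951 : List Nat := [nat_lit 0,nat_lit 17,nat_lit 4130,nat_lit 4147,nat_lit 8516,nat_lit 12629]
def C954 : List Nat := [nat_lit 0,nat_lit 17,nat_lit 4130,nat_lit 4147,nat_lit 8516]
def C1097 : List Nat := [nat_lit 0,nat_lit 17,nat_lit 4130,nat_lit 8243,nat_lit 12356,nat_lit 16469,nat_lit 20582]
def C1104 : List Nat := [nat_lit 0,nat_lit 17,nat_lit 4130,nat_lit 8243,nat_lit 12356,nat_lit 16469]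
def C1118 : List Nat := [nat_lit 0,nat_lit 17,nat_lit 4130,nat_lit 8243,nat_lit 12356,nat_lit 341,nat_lit 614]
def C1125 : List Nat := [nat_lit 0,nat_lit 17,nat_lit 4130,nat_lit 8243,nat_lit 12356,nat_lit 341]
def C1127 : List Nat := [nat_lit 0,nat_lit 17,nat_lit 4130,nat_lit 8243,nat_lit 12356]
def C1139 : List Nat := [nat_lit 0,nat_lit 17,nat_lit 4130,nat_lit 8243,nat_lit 8516,nat_lit 8533]
def C1146 : List Nat := [nat_lit 0,nat_lit 17,nat_lit 4130,nat_lit 8243,nat_lit 8516,nat_lit 8789,nat_lit 9062]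
def C1150 : List Nat := [nat_lit 0,nat_lit 17,nat_lit 4130,nat_lit 8243,nat_lit 8516,nat_lit 8789]
def C1159 : List Nat := [nat_lit 0,nat_lit 17,nat_lit 4130,nat_lit 8243,nat_lit 8516,nat_lit 4437]
def C1165 : List Nat := [nat_lit 0,nat_lit 17,nat_lit 4130,nat_lit 8243,nat_lit 8516]
def C1178 : List Nat := [nat_lit 0,nat_lit 17,nat_lit 4130,nat_lit 8243,nat_lit 324,nat_lit 597]
def C1183 : List Nat := [nat_lit 0,nat_lit 17,nat_lit 4130,nat_lit 8243,nat_lit 324]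
def C1185 : List Nat := [nat_lit 0,nat_lit 17,nat_lit 4130,nat_lit 8243]
def C1194 : List Nat := [nat_lit 0,nat_lit 17,nat_lit 4130,nat_lit 4403,nat_lit 4420]
def C1210 : List Nat := [nat_lit 0,nat_lit 17,nat_lit 4130,nat_lit 4403,nat_lit 4676,nat_lit 4949]
def C1216 : List Nat := [nat_lit 0,nat_lit 17,nat_lit 4130,nat_lit 4403,nat_lit 4676]
def C1227 : List Nat := [nat_lit 0,nat_lit 17,nat_lit 4130,nat_lit 4403,nat_lit 580]
def C1236 : List Nat := [nat_lit 0,nat_lit 17,nat_lit 4130,nat_lit 4403,nat_lit 8516]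
def C1238 : List Nat := [nat_lit 0,nat_lit 17,nat_lit 4130,nat_lit 4403]
def C1247 : List Nat := [nat_lit 0,nat_lit 17,nat_lit 4130,nat_lit 307]
def C1257 : List Nat := [nat_lit 0,nat_lit 17,nat_lit 4130,nat_lit 8499,nat_lit 8516]
def C1270 : List Nat := [nat_lit 0,nat_lit 17,nat_lit 4130,nat_lit 8499,nat_lit 8772,nat_lit 9045]
def C1274 : List Nat := [nat_lit 0,nat_lit 17,nat_lit 4130,nat_lit 8499,nat_lit 8772]
def C1296 : List Nat := [nat_lit 0,nat_lit 17,nat_lit 4130,nat_lit 8499,nat_lit 12612,nat_lit 16725]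
def C1300 : List Nat := [nat_lit 0,nat_lit 17,nat_lit 4130,nat_lit 8499,nat_lit 12612]
def C1303 : List Nat := [nat_lit 0,nat_lit 17,nat_lit 4130,nat_lit 8499]
def C1304 : List Nat := [nat_lit 0,nat_lit 17,nat_lit 4130]
def C1330 : List Nat := [nat_lit 0,nat_lit 17,nat_lit 4386,nat_lit 4659,nat_lit 4932]
def C1336 : List Nat := [nat_lit 0,nat_lit 17,nat_lit 4386,nat_lit 4659]
def C1342 : List Nat := [nat_lit 0,nat_lit 17,nat_lit 4386]
def C1581 : List Nat := [nat_lit 0,nat_lit 4113,nat_lit 8226,nat_lit 12339,nat_lit 12612,nat_lit 12885,nat_lit 13158]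
def C1586 : List Nat := [nat_lit 0,nat_lit 4113,nat_lit 8226,nat_lit 12339,nat_lit 12612,nat_lit 12885]
def C1595 : List Nat := [nat_lit 0,nat_lit 4113,nat_lit 8226,nat_lit 12339,nat_lit 12612]
def C1610 : List Nat := [nat_lit 0,nat_lit 4113,nat_lit 8226,nat_lit 8499,nat_lit 8772]
def C1619 : List Nat := [nat_lit 0,nat_lit 4113,nat_lit 8226,nat_lit 8499,nat_lit 4420]
def C1640 : List Nat := [nat_lit 0,nat_lit 4113,nat_lit 8226,nat_lit 8499,nat_lit 12612,nat_lit 16725]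
def C1644 : List Nat := [nat_lit 0,nat_lit 4113,nat_lit 8226,nat_lit 8499,nat_lit 12612]
def C1647 : List Nat := [nat_lit 0,nat_lit 4113,nat_lit 8226,nat_lit 8499]
def C1669 : List Nat := [nat_lit 0,nat_lit 4113,nat_lit 8226,nat_lit 12595,nat_lit 12868]
def C1700 : List Nat := [nat_lit 0,nat_lit 4113,nat_lit 8226,nat_lit 12595,nat_lit 16708]
def C1704 : List Nat := [nat_lit 0,nat_lit 4113,nat_lit 8226,nat_lit 12595]
def C1727 : List Nat := [nat_lit 0,nat_lit 4113,nat_lit 4386,nat_lit 563]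
def C1730 : List Nat := [nat_lit 0,nat_lit 4113,nat_lit 4386]
def C1758 : List Nat := [nat_lit 0,nat_lit 4113,nat_lit 8482]
def C1759 : List Nat := [nat_lit 0,nat_lit 4113]
def C1771 : List Nat := []

end Vale.Agent.Lib.P045.R42
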