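import Vale.Agent.Lib.P045.R42.Data

set_option maxRecDepth 1000000

namespace Vale.Agent.Lib.P045.R42

open Vale.Agent.Lib.P045 Cert

theorem K73 : checkNode 4 2 6 U [] 3000 0 C73 (t (nat_lit 35395630924032) (a (t (nat_lit 6692115980336) e) (a (t (nat_lit 6687821013040) e) (a (t (nat_lit 6683526045744) e) (a (t (nat_lit 6679231078448) e) (a (t (nat_lit 6674936111152) e) (a (t (nat_lit 6670641143856) e) (a (t (nat_lit 6666346176560) e) (a (t (nat_lit 25315094175792) e) (a (t (nat_lit 5592604352560) e) (a (t (nat_lit 5588309385264) e) (a (t (nat_lit 5584014417968) e) (a (t (nat_lit 5579719450672) e) (a (t (nat_lit 5575424483376) e) (a (t (nat_lit 5571129516080) e) (a (t (nat_lit 5566834548784) e) (a (t (nat_lit 25310799208496) e) (a (t (nat_lit 4493092724784) e) (a (t (nat_lit 4488797757488) e) (a (t (nat_lit 4484502790192) e) (a (t (nat_lit 4480207822896) e) (a (t (nat_lit 4475912855600) e) (a (t (nat_lit 4471617888304) e) (a (t (nat_lit 4467322921008) e) (a (t (nat_lit 25306504241200) e) (a (t (nat_lit 3393581097008) e) (a (t (nat_lit 3389286129712) e) (a (t (nat_lit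 3384991162416) e) (a (t (nat_lit 3380696195120) e) (a (t (nat_lit 3376401227824) e) (a (t (nat_lit 3372106260528) e) (a (t (nat_lit 3367811293232) e) (a (t (nat_lit 25302209273904) e) (a (t (nat_lit 7791627608112) e) (a (t (nat_lit 7787332640816) e) (a (t (nat_lit 7783037673520) e) (a (t (nat_lit 7778742706224) e) (a (t (nat_lit 7774447738928) e) (a (t (nat_lit 7770152771632) e) (a (t (nat_lit 7765857804336) e) (a (t (nat_lit 7795922575408) e) e))))))))))))))))))))))))))))))))))))))))) = true := by decide +kernel
theorem K117 : checkNode 4 2 6 U [] 3000 0 C117 (t (nat_lit 35394912518400) (a (t (nat_lit 6692115980336) e) (a (t (nat_lit 6687821013040) e) (a (t (nat_lit 6683526045744) e) (a (t (nat_lit 6679231078448) e) (a (t (nat_lit 6674936111152) e) (a (t (nat_lit 6670641143856) e) (a (t (nat_lit 6666346176560) e) (a (t (nat_lit 25315094175792) e) (a (t (nat_lit 4493092724784) e) (a (t (nat_lit 4488797757488) e) (a (t (nat_lit 4484502790192) e) (a (t (nat_lit 4480207822896) e) (a (t (nat_lit 4475912855600) e) (a (t (nat_lit 4471617888304) e) (a (t (nat_lit 4467322921008)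 e) (a (t (nat_lit 25306504241200) e) (a (t (nat_lit 3393581097008) e) (a (t (nat_lit 3389286129712) e) (a (t (nat_lit 3384991162416) e) (a (t (nat_lit 3380696195120) e) (a (t (nat_lit 3376401227824) e) (a (t (nat_lit 3372106260528) e) (a (t (nat_lit 3367811293232) e) (a (t (nat_lit 25302209273904) e) (a (t (nat_lit 2294069469232) e) (a (t (nat_lit 2289774501936) e) (a (t (nat_lit 2285479534640) e) (a (t (nat_lit 2281184567344) e) (a (t (nat_lit 2276889600048) e) (a (t (nat_lit 2272594632752) e) (a (t (nat_lit 2268299665456) e) (a (t (nat_lit 25297914306608) e) (a (t (nat_lit 7791627608112) e) (a (t (nat_lit 7787332640816) e) (a (t (nat_lit 7783037673520) e) (a (t (nat_lit 7778742706224) e) (a (t (nat_lit 7774447738928) e) (a (t (nat_lit 7770152771632) e) (a (t (nat_lit 7765857804336) e) (a (t (nat_lit 7795922575408) e) e))))))))))))))))))))))))))))))))))))))))) = true := by decide +kernel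
theorem K167 : checkNode 4 2 6 U [] 3000 0 C167 (t (nat_lit 35395664687104) (a (t (nat_lit 6692116045872) e) (a (t (nat_lit 6687821078576) e) (a (t (nat_lit 6683526111280) e) (a (t (nat_lit 6679231143984) e) (a (t (nat_lit 6674936176688) e) (a (t (nat_lit 6670641209392) e) (a (t (nat_lit 6666346242096) e) (a (t (nat_lit 25315094241328) e) (a (t (nat_lit 4493092790320) e) (a (t (nat_lit 4488797823024) e) (a (t (nat_lit 4484502855728) e) (a (t (nat_lit 4480207888432) e) (a (t (nat_lit 4475912921136) e) (a (t (nat_lit 4471617953840) e) (a (t (nat_lit 4467322986544) e) (a (t (nat_lit 25306504306736) e) (a (t (nat_lit 3393581162544) e) (a (t (nat_lit 3389286195248) e) (a (t (nat_lit 3384991227952) e) (a (t (nat_lit 3380696260656) e) (a (t (nat_lit 3376401293360) e) (a (t (nat_lit 3372106326064) e) (a (t (nat_lit 3367811358768) e) (a (t (nat_lit 25302209339440) e) (a (t (nat_lit 2294069534768) e) (a (t (nat_lit 2289774567472) e) (a (t (nat_lit 2285479600176) e) (a (t (nat_lit 2281184632880) e) (a (t (nat_lit 2276889665584) e) (a (t (nat_lit 2272594698288) e) (a (t (nat_lit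 2268299730992) e) (a (t (nat_lit 25297914372144) e) (a (t (nat_lit 1194557906992) e) (a (t (nat_lit 1190262939696) e) (a (t (nat_lit 1185967972400) e) (a (t (nat_lit 1181673005104) e) (a (t (nat_lit 1177378037808) e) (a (t (nat_lit 1173083070512) e) (a (t (nat_lit 1168788103216) e) (a (t (nat_lit 25293619404848) e) (a (t (nat_lit 7791627673648) e) (a (t (nat_lit 7787332706352) e) (a (t (nat_lit 7783037739056) e) (a (t (nat_lit 7778742771760) e) (a (t (nat_lit 7774447804464) e) (a (t (nat_lit 7770152837168) e) (a (t (nat_lit 7765857869872) e) (a (t (nat_lit 7795922640944) e) e))))))))))))))))))))))))))))))))))))))))))))))))) = true := by decide +kernel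
theorem K181 : checkNode 4 2 6 U [] 3000 0 C181 (t (nat_lit 23184772510000) (a (t (nat_lit 6743938834480) e) (a (t (nat_lit 6743938768944) e) (a (t (nat_lit 6743938703408) e) (a (t (nat_lit 6743938637872) e) (a (t (nat_lit 6743938572336) e) (a (t (nat_lit 6743939031088) e) (a (t (nat_lit 5644427206704) e) (a (t (nat_lit 5644427141168) e) (a (t (nat_lit 5644427075632) e) (a (t (nat_lit 5644427010096) e) (a (t (nat_lit 5644426944560) e) (a (t (nat_lit 5644427403312) e) e))))))))))))) = true := by decide +kernel
theorem K183 : checkNode 4 2 6 U [(0,C117),(0,C73),(0,C167),(0,C181)] 3000 1 C183 (k (a (r (nat_lit 0) (nat_lit 12816) (nat_lit 12816) [(nat_lit 18364758544493064720),(nat_lit 18364758544493064720),(nat_lit 18364758544493064720),(nat_lit 18364758544493064720)]) (a (r (nat_lit 1) (nat_lit 12816) (nat_lit 12816) [(nat_lit 18364758544477336080),(nat_lit 18364758544477336080),(nat_lit 18364758544493064720),(nat_lit 18364758544493064720)]) (a (r (nat_lit 2) (nat_lit 12816) (nat_lit 12816) [(nat_lit 18364758544493064720),(nat_lit 18364758544493064720),(nat_lit 18364758544493064720),(nat_lit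 18364758544493064720)]) (a (t (nat_lit 6692098093360) e) (a (r (nat_lit 3) (nat_lit 12816) (nat_lit 12816) [(nat_lit 18364758544493064720),(nat_lit 18364758544493064720),(nat_lit 18364758544493064720),(nat_lit 18364758544493064720)]) (a (t (nat_lit 6692115980336) e) e))))))) = true := by decide +kernel
theorem K227 : checkNode 4 2 6 U [] 3000 0 C227 (t (nat_lit 35394895741184) (a (t (nat_lit 6692115980336) e) (a (t (nat_lit 6687821013040) e) (a (t (nat_lit 6683526045744) e) (a (t (nat_lit 6679231078448) e) (a (t (nat_lit 6674936111152) e) (a (t (nat_lit 6670641143856) e) (a (t (nat_lit 6666346176560) e) (a (t (nat_lit 25315094175792) e) (a (t (nat_lit 5592604352560) e) (a (t (nat_lit 5588309385264) e) (a (t (nat_lit 5584014417968) e) (a (t (nat_lit 5579719450672) e) (a (t (nat_lit 5575424483376) e) (a (t (nat_lit 5571129516080) e) (a (t (nat_lit 5566834548784) e) (a (t (nat_lit 25310799208496) e) (a (t (nat_lit 3393581097008) e) (a (t (nat_lit 3389286129712) e) (a (t (nat_lit 3384991162416) e) (a (t (nat_lit 3380696195120) e) (a (t (nat_lit 53889258828320) e) (a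 (t (nat_lit 53889242051104) e) (a (t (nat_lit 53889225273888) e) (a (t (nat_lit 25302209273904) e) (a (t (nat_lit 2294069469232) e) (a (t (nat_lit 2289774501936) e) (a (t (nat_lit 2285479534640) e) (a (t (nat_lit 53884980638240) e) (a (t (nat_lit 2276889600048) e) (a (t (nat_lit 53884947083808) e) (a (t (nat_lit 53884930306592) e) (a (t (nat_lit 25297914306608) e) (a (t (nat_lit 7791627608112) e) (a (t (nat_lit 7787332640816) e) (a (t (nat_lit 7783037673520) e) (a (t (nat_lit 7778742706224) e) (a (t (nat_lit 7774447738928) e) (a (t (nat_lit 7770152771632) e) (a (t (nat_lit 7765857804336) e) (a (t (nat_lit 7795922575408) e) e))))))))))))))))))))))))))))))))))))))))) = true := by decide +kernel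
theorem K277 : checkNode 4 2 6 U [] 3000 0 C277 (t (nat_lit 6735350804480) (a (t (nat_lit 5592604418096) e) (a (t (nat_lit 5588309450800) e) (a (t (nat_lit 5584014483504) e) (a (t (nat_lit 5579719516208) e) (a (t (nat_lit 5575424548912) e) (a (t (nat_lit 5571129581616) e) (a (t (nat_lit 5566834614320) e) (a (t (nat_lit 25310799274032) e) (a (t (nat_lit 4493092790320) e) (a (t (nat_lit 4488797823024) e) (a (t (nat_lit 4484502855728) e) (a (t (nat_lit 4480207888432) e) (a (t (nat_lit 4475912921136) e) (a (t (nat_lit 4471617953840) e) (a (t (nat_lit 4467322986544) e) (a (t (nat_lit 25306504306736) e) (a (t (nat_lit 3393581162544) e) (a (t (nat_lit 3389286195248) e) (a (t (nat_lit 3384991227952) e) (a (t (nat_lit 3380696260656) e) (a (t (nat_lit 3376401293360) e) (a (t (nat_lit 3372106326064) e) (a (t (nat_lit 3367811358768) e) (a (t (nat_lit 25302209339440) e) (a (t (nat_lit 2294069534768) e) (a (t (nat_lit 2289774567472) e) (a (t (nat_lit 2285479600176) e) (a (t (nat_lit 2281184632880) e) (a (t (nat_lit 2276889665584) e) (a (t (nat_lit 2272594698288) e) (a (t (nat_lit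 2268299730992) e) (a (t (nat_lit 25297914372144) e) (a (t (nat_lit 1194557906992) e) (a (t (nat_lit 1190262939696) e) (a (t (nat_lit 1185967972400) e) (a (t (nat_lit 1181673005104) e) (a (t (nat_lit 1177378037808) e) (a (t (nat_lit 1173083070512) e) (a (t (nat_lit 1168788103216) e) (a (t (nat_lit 25293619404848) e) (a (t (nat_lit 7791627673648) e) (a (t (nat_lit 7787332706352) e) (a (t (nat_lit 7783037739056) e) (a (t (nat_lit 7778742771760) e) (a (t (nat_lit 7774447804464) e) (a (t (nat_lit 7770152837168) e) (a (t (nat_lit 7765857869872) e) (a (t (nat_lit 7795922640944) e) e))))))))))))))))))))))))))))))))))))))))))))))))) = true := by decide +kernel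
theorem K281 : checkNode 4 2 6 U [] 3000 0 C281 (t (nat_lit 6692098093360) (a (t (nat_lit 4544915644464) e) (a (t (nat_lit 5644427206704) e) e))) = true := by decide +kernel
theorem K283 : checkNode 4 2 6 U [(0,C227),(0,C117),(0,C277),(0,C281)] 3000 1 C283 (k (a (r (nat_lit 0) (nat_lit 12816) (nat_lit 12816) [(nat_lit 18364758544493064720),(nat_lit 18364758544493064720),(nat_lit 18364758544493064720),(nat_lit 18364758544493064720)]) (a (r (nat_lit 1) (nat_lit 12816) (nat_lit 12816) [(nat_lit 18364758544475370000),(nat_lit 18364758544475370000),(nat_lit 18364758544493064720),(nat_lit 18364758544493064720)]) (a (r (nat_lit 2) (nat_lit 12816) (nat_lit 12816) [(nat_lit 18364758544493064720),(nat_lit 18364758544493064720),(nat_lit 18364758544493064720),(nat_lit 18364758544493064720)]) (a (t (nat_lit 6692098093360) e) (a (r (nat_lit 3) (nat_lit 12816) (nat_lit 12816) [(nat_lit 18364758544493064720),(nat_lit 18364758544493064720),(nat_lit 18364758544493064720),(nat_lit 18364758544493064720)]) (a (t (nat_lit 6692115980336) e) e))))))) = true := by decide +kernel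
theorem K344 : checkNode 4 2 6 U [] 3000 0 C344 (t (nat_lit 35395684406320) (a (t (nat_lit 6692116111408) e) (a (t (nat_lit 6687821144112) e) (a (t (nat_lit 6679231209520) e) (a (t (nat_lit 6674936242224) e) (a (t (nat_lit 6670641274928) e) (a (t (nat_lit 6666346307632) e) (a (t (nat_lit 25315094306864) e) (a (t (nat_lit 5592604483632) e) (a (t (nat_lit 5588309516336) e) (a (t (nat_lit 5579719581744) e) (a (t (nat_lit 5575424614448) e) (a (t (nat_lit 5571129647152) e) (a (t (nat_lit 5566834679856) e) (a (t (nat_lit 25310799339568) e) (a (t (nat_lit 4493092855856) e) (a (t (nat_lit 4488797888560) e) (a (t (nat_lit 4480207953968) e) (a (t (nat_lit 4475912986672) e) (a (t (nat_lit 4471618019376) e) (a (t (nat_lit 4467323052080) e) (a (t (nat_lit 25306504372272) e) (a (t (nat_lit 3393581228080) e) (a (t (nat_lit 3389286260784) e) (a (t (nat_lit 3380696326192) e) (a (t (nat_lit 3376401358896) e) (a (t (nat_lit 3372106391600) e) (a (t (nat_lit 3367811424304) e) (a (t (nat_lit 25302209404976) e) (a (t (nat_lit 2294069600304) e) (a (t (nat_lit 2289774633008) e) (a (t (nat_lit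 2281184698416) e) (a (t (nat_lit 2276889731120) e) (a (t (nat_lit 2272594763824) e) (a (t (nat_lit 2268299796528) e) (a (t (nat_lit 25297914437680) e) (a (t (nat_lit 1194557972528) e) (a (t (nat_lit 1190263005232) e) (a (t (nat_lit 1181673070640) e) (a (t (nat_lit 1177378103344) e) (a (t (nat_lit 1173083136048) e) (a (t (nat_lit 1168788168752) e) (a (t (nat_lit 25293619470384) e) (a (t (nat_lit 95046344752) e) (a (t (nat_lit 90751377456) e) (a (t (nat_lit 82161442864) e) (a (t (nat_lit 77866475568) e) (a (t (nat_lit 73571508272) e) (a (t (nat_lit 69276540976) e) (a (t (nat_lit 25289324503088) e) (a (t (nat_lit 7791627739184) e) (a (t (nat_lit 7787332771888) e) (a (t (nat_lit 7778742837296) e) (a (t (nat_lit 7774447870000) e) (a (t (nat_lit 7770152902704) e) (a (t (nat_lit 7765857935408) e) (a (t (nat_lit 7795922706480) e) e))))))))))))))))))))))))))))))))))))))))))))))))))))))))) = true := by decide +kernel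
theorem K356 : checkNode 4 2 6 U [] 3000 0 C356 (t (nat_lit 24327251702064) (a (t (nat_lit 23116087762992) e) (a (t (nat_lit 4544932421680) e) (a (t (nat_lit 22016576135216) e) (a (t (nat_lit 20917064507440) e) (a (t (nat_lit 19817552879664) e) (a (t (nat_lit 18718041251888) e) (a (t (nat_lit 17618529624112) e) (a (t (nat_lit 25434900340784) e) (a (t (nat_lit 5644443983920) e) e)))))))))) = true := by decide +kernel
theorem K358 : checkNode 4 2 6 U [(0,C277),(0,C167),(0,C344),(0,C356)] 3000 1 C358 (k (a (r (nat_lit 0) (nat_lit 12816) (nat_lit 12816) [(nat_lit 18364758544460624400),(nat_lit 18364758544460624400),(nat_lit 18364758544493064720),(nat_lit 18364758544493064480)]) (a (r (nat_lit 0) (nat_lit 12816) (nat_lit 12816) [(nat_lit 18364758544477336080),(nat_lit 18364758544477336080),(nat_lit 18364758544493064720),(nat_lit 18364758544493064720)]) (a (r (nat_lit 1) (nat_lit 12816) (nat_lit 12816) [(nat_lit 18364758544475370000),(nat_lit 18364758544475370000),(nat_lit 18364758544493064720),(nat_lit 18364758544493064720)]) (a (r (nat_lit 2) (nat_lit 12816) (nat_lit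 12816) [(nat_lit 18364758544493064720),(nat_lit 18364758544493064720),(nat_lit 18364758544493064720),(nat_lit 18364758544493064720)]) (a (t (nat_lit 6692115980336) e) (a (t (nat_lit 6692114805040) e) (a (r (nat_lit 3) (nat_lit 12816) (nat_lit 12816) [(nat_lit 18364758544493064720),(nat_lit 18364758544493064720),(nat_lit 18364758544493064720),(nat_lit 18364758544493064720)]) (a (t (nat_lit 6692116045872) e) e))))))))) = true := by decide +kernel
theorem K368 : checkNode 4 2 6 U [(0,C281),(0,C181),(0,C356)] 3000 1 C368 (k (a (t (nat_lit 6692098093360) e) (a (r (nat_lit 0) (nat_lit 12816) (nat_lit 12816) [(nat_lit 18364758544477336080),(nat_lit 18364758544477336080),(nat_lit 18364758544493064720),(nat_lit 18364758544493064720)]) (a (t (nat_lit 6743922188336) e) (a (r (nat_lit 0) (nat_lit 8976) (nat_lit 8976) [(nat_lit 18364758544460624400),(nat_lit 18364758544460624400),(nat_lit 18364758544493064720),(nat_lit 18364758544493064720)]) (a (r (nat_lit 1) (nat_lit 12816) (nat_lit 12816) [(nat_lit 18364758544475370000),(nat_lit 18364758544475370000),(nat_lit 18364758544493064720),(nat_lit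 18364758544493064720)]) (a (r (nat_lit 2) (nat_lit 8976) (nat_lit 8976) [(nat_lit 18364758544460624400),(nat_lit 18364758544460624400),(nat_lit 18364758544493064720),(nat_lit 18364758544493064720)]) (a (t (nat_lit 6812373229616) e) (a (r (nat_lit 2) (nat_lit 12816) (nat_lit 12816) [(nat_lit 18364758544477336080),(nat_lit 18364758544477336080),(nat_lit 18364758544493064720),(nat_lit 18364758544493064720)]) e))))))))) = true := by decide +kernel
theorem K370 : checkNode 4 2 6 U [(1,C283),(1,C183),(1,C358),(1,C368)] 3000 2 C370 (k (a (r (nat_lit 0) (nat_lit 12816) (nat_lit 12816) [(nat_lit 18364758544493064720),(nat_lit 18364758544493064720),(nat_lit 18364758544493064720),(nat_lit 18364758544493064720)]) (a (r (nat_lit 1) (nat_lit 12816) (nat_lit 12816) [(nat_lit 18364758544492081680),(nat_lit 18364758544492081680),(nat_lit 18364758544493064720),(nat_lit 18364758544493064720)]) (a (r (nat_lit 2) (nat_lit 12816) (nat_lit 12816) [(nat_lit 18364758544493064720),(nat_lit 18364758544493064720),(nat_lit 18364758544493064720),(nat_lit 18364758544493064720)]) (a (t (nat_lit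 5588291498288) e) (a (r (nat_lit 3) (nat_lit 12816) (nat_lit 12816) [(nat_lit 18364758544493064720),(nat_lit 18364758544493064720),(nat_lit 18364758544493064720),(nat_lit 18364758544493064720)]) (a (t (nat_lit 5588309385264) e) e))))))) = true := by decide +kernel
theorem K424 : checkNode 4 2 6 U [] 3000 0 C424 (t (nat_lit 35399942746112) (a (t (nat_lit 6692116045872) e) (a (t (nat_lit 6687821078576) e) (a (t (nat_lit 6683526111280) e) (a (t (nat_lit 6679231143984) e) (a (t (nat_lit 53902143730464) e) (a (t (nat_lit 53902126953248) e) (a (t (nat_lit 53902110176032) e) (a (t (nat_lit 25315094241328) e) (a (t (nat_lit 5592604418096) e) (a (t (nat_lit 5588309450800) e) (a (t (nat_lit 5584014483504) e) (a (t (nat_lit 5579719516208) e) (a (t (nat_lit 5575424548912) e) (a (t (nat_lit 5571129581616) e) (a (t (nat_lit 5566834614320) e) (a (t (nat_lit 25310799274032) e) (a (t (nat_lit 4493092790320) e) (a (t (nat_lit 4488797823024) e) (a (t (nat_lit 4484502855728) e) (a (t (nat_lit 4480207888432) e) (a (t (nat_lit 4475912921136) e) (a (t (nat_lit 4471617953840) e) (a (t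 (nat_lit 4467322986544) e) (a (t (nat_lit 25306504306736) e) (a (t (nat_lit 53885030970144) e) (a (t (nat_lit 2289774567472) e) (a (t (nat_lit 2285479600176) e) (a (t (nat_lit 2281184632880) e) (a (t (nat_lit 2276889665584) e) (a (t (nat_lit 53884947084064) e) (a (t (nat_lit 53884930306848) e) (a (t (nat_lit 25297914372144) e) (a (t (nat_lit 53880736002848) e) (a (t (nat_lit 1190262939696) e) (a (t (nat_lit 1185967972400) e) (a (t (nat_lit 1181673005104) e) (a (t (nat_lit 53880668893984) e) (a (t (nat_lit 1173083070512) e) (a (t (nat_lit 53880635339552) e) (a (t (nat_lit 25293619404848) e) (a (t (nat_lit 7791627673648) e) (a (t (nat_lit 7787332706352) e) (a (t (nat_lit 7783037739056) e) (a (t (nat_lit 7778742771760) e) (a (t (nat_lit 7774447804464) e) (a (t (nat_lit 7770152837168) e) (a (t (nat_lit 7765857869872) e) (a (t (nat_lit 7795922640944) e) e))))))))))))))))))))))))))))))))))))))))))))))))) = true := by decide +kernel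
theorem K478 : checkNode 4 2 6 U [] 3000 0 C478 (t (nat_lit 35399475998736) (a (t (nat_lit 6692116045872) e) (a (t (nat_lit 6683526111280) e) (a (t (nat_lit 6679231143984) e) (a (t (nat_lit 6674936176688) e) (a (t (nat_lit 6670641209392) e) (a (t (nat_lit 25315094241328) e) (a (t (nat_lit 5592604418096) e) (a (t (nat_lit 5584014483504) e) (a (t (nat_lit 5579719516208) e) (a (t (nat_lit 5575424548912) e) (a (t (nat_lit 5571129581616) e) (a (t (nat_lit 25310799274032) e) (a (t (nat_lit 4493092790320) e) (a (t (nat_lit 4484502855728) e) (a (t (nat_lit 4480207888432) e) (a (t (nat_lit 4475912921136) e) (a (t (nat_lit 4471617953840) e) (a (t (nat_lit 25306504306736) e) (a (t (nat_lit 3393581162544) e) (a (t (nat_lit 3384991227952) e) (a (t (nat_lit 3380696260656) e) (a (t (nat_lit 3376401293360) e) (a (t (nat_lit 3372106326064) e) (a (t (nat_lit 25302209339440) e) (a (t (nat_lit 2294069534768) e) (a (t (nat_lit 2285479600176) e) (a (t (nat_lit 2281184632880) e) (a (t (nat_lit 2276889665584) e) (a (t (nat_lit 2272594698288) e) (a (t (nat_lit 25297914372144) e) (a (t (nat_lit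 1194557906992) e) (a (t (nat_lit 1185967972400) e) (a (t (nat_lit 1181673005104) e) (a (t (nat_lit 1177378037808) e) (a (t (nat_lit 1173083070512) e) (a (t (nat_lit 25293619404848) e) (a (t (nat_lit 95046279216) e) (a (t (nat_lit 86456344624) e) (a (t (nat_lit 82161377328) e) (a (t (nat_lit 77866410032) e) (a (t (nat_lit 73571442736) e) (a (t (nat_lit 25289324437552) e) (a (t (nat_lit 7791627673648) e) (a (t (nat_lit 7783037739056) e) (a (t (nat_lit 7778742771760) e) (a (t (nat_lit 7774447804464) e) (a (t (nat_lit 7770152837168) e) (a (t (nat_lit 7795922640944) e) e))))))))))))))))))))))))))))))))))))))))))))))))) = true := by decide +kernel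
theorem K537 : checkNode 4 2 6 U [] 3000 0 C537 (t (nat_lit 35399977480496) (a (t (nat_lit 6692116111408) e) (a (t (nat_lit 6683526176816) e) (a (t (nat_lit 6679231209520) e) (a (t (nat_lit 6674936242224) e) (a (t (nat_lit 6670641274928) e) (a (t (nat_lit 6666346307632) e) (a (t (nat_lit 25315094306864) e) (a (t (nat_lit 5592604483632) e) (a (t (nat_lit 5584014549040) e) (a (t (nat_lit 5579719581744) e) (a (t (nat_lit 5575424614448) e) (a (t (nat_lit 5571129647152) e) (a (t (nat_lit 5566834679856) e) (a (t (nat_lit 25310799339568) e) (a (t (nat_lit 4493092855856) e) (a (t (nat_lit 4484502921264) e) (a (t (nat_lit 4480207953968) e) (a (t (nat_lit 4475912986672) e) (a (t (nat_lit 4471618019376) e) (a (t (nat_lit 4467323052080) e) (a (t (nat_lit 25306504372272) e) (a (t (nat_lit 3393581228080) e) (a (t (nat_lit 3384991293488) e) (a (t (nat_lit 3380696326192) e) (a (t (nat_lit 3376401358896) e) (a (t (nat_lit 3372106391600) e) (a (t (nat_lit 3367811424304) e) (a (t (nat_lit 25302209404976) e) (a (t (nat_lit 2294069600304) e) (a (t (nat_lit 2285479665712) e) (a (t (nat_lit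 2281184698416) e) (a (t (nat_lit 2276889731120) e) (a (t (nat_lit 2272594763824) e) (a (t (nat_lit 2268299796528) e) (a (t (nat_lit 25297914437680) e) (a (t (nat_lit 1194557972528) e) (a (t (nat_lit 1185968037936) e) (a (t (nat_lit 1181673070640) e) (a (t (nat_lit 1177378103344) e) (a (t (nat_lit 1173083136048) e) (a (t (nat_lit 1168788168752) e) (a (t (nat_lit 25293619470384) e) (a (t (nat_lit 95046344752) e) (a (t (nat_lit 86456410160) e) (a (t (nat_lit 82161442864) e) (a (t (nat_lit 77866475568) e) (a (t (nat_lit 73571508272) e) (a (t (nat_lit 69276540976) e) (a (t (nat_lit 25289324503088) e) (a (t (nat_lit 7791627739184) e) (a (t (nat_lit 7783037804592) e) (a (t (nat_lit 7778742837296) e) (a (t (nat_lit 7774447870000) e) (a (t (nat_lit 7770152902704) e) (a (t (nat_lit 7765857935408) e) (a (t (nat_lit 7795922706480) e) e))))))))))))))))))))))))))))))))))))))))))))))))))))))))) = true := by decide +kernel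
theorem K542 : checkNode 4 2 6 U [] 3000 0 C542 (t (nat_lit 53902647039520) (a (t (nat_lit 3445403951152) e) (a (t (nat_lit 4544915513392) e) e))) = true := by decide +kernel
theorem K544 : checkNode 4 2 6 U [(0,C478),(0,C424),(0,C277),(0,C537),(0,C542)] 3000 1 C544 (k (a (r (nat_lit 0) (nat_lit 12816) (nat_lit 12816) [(nat_lit 18364758544493064720),(nat_lit 18364758544493064720),(nat_lit 18364758544493064720),(nat_lit 18364758544493064720)]) (a (r (nat_lit 1) (nat_lit 12816) (nat_lit 12816) [(nat_lit 18364758544477336080),(nat_lit 18364758544477336080),(nat_lit 18364758544493064720),(nat_lit 18364758544493064720)]) (a (r (nat_lit 2) (nat_lit 12816) (nat_lit 12816) [(nat_lit 18364758544475185680),(nat_lit 18364758544475185680),(nat_lit 18364758544493064720),(nat_lit 18364758544493064720)]) (a (r (nat_lit 3) (nat_lit 12816) (nat_lit 12816) [(nat_lit 18364758544493064720),(nat_lit 18364758544493064720),(nat_lit 18364758544493064720),(nat_lit 18364758544493064720)]) (a (t (nat_lit 6692115980336) e) (a (t (nat_lit 6692114805040) e) (a (r (nat_lit 4) (nat_lit 12816)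 (nat_lit 12816) [(nat_lit 18364758544493064720),(nat_lit 18364758544493064720),(nat_lit 18364758544493064720),(nat_lit 18364758544493064720)]) (a (t (nat_lit 6692116045872) e) e))))))))) = true := by decide +kernel
theorem K551 : checkNode 4 2 6 U [] 3000 0 C551 (t (nat_lit 23184772510000) (a (t (nat_lit 35331241149232) e) (a (t (nat_lit 35331240104752) e) e))) = true := by decide +kernel
theorem K556 : checkNode 4 2 6 U [] 3000 0 C556 (t (nat_lit 24331562266928) (a (t (nat_lit 35335536116528) e) (a (t (nat_lit 52991894099232) e) (a (t (nat_lit 35335535072048) e) e)))) = true := by decide +kernel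
theorem K559 : checkNode 4 2 6 U [(0,C551),(0,C281),(0,C556),(0,C542)] 3000 1 C559 (k (a (t (nat_lit 23184772510000) e) (a (t (nat_lit 5588291498288) e) (a (t (nat_lit 6743922188336) e) (a (r (nat_lit 0) (nat_lit 12816) (nat_lit 12816) [(nat_lit 18364758544493064720),(nat_lit 18364758544493064720),(nat_lit 18364758544493064720),(nat_lit 18364758544493064720)]) (a (r (nat_lit 1) (nat_lit 12816) (nat_lit 12816) [(nat_lit 18364758544475185680),(nat_lit 18364758544475185680),(nat_lit 18364758544493064720),(nat_lit 18364758544493064720)]) (a (r (nat_lit 2) (nat_lit 12816) (nat_lit 12816) [(nat_lit 18364758544493064720),(nat_lit 18364758544493064720),(nat_lit 18364758544493064720),(nat_lit 18364758544493064720)]) (a (t (nat_lit 6812373229616) e) (a (r (nat_lit 3) (nat_lit 12816) (nat_lit 12816) [(nat_lit 18364758544477336080),(nat_lit 18364758544477336080),(nat_lit 18364758544493064720),(nat_lit 18364758544493064720)]) e))))))))) = true := by decide +kernel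
theorem K561 : checkNode 4 2 6 U [(0,C227),(0,C424),(1,C283),(1,C544),(1,C559)] 3000 2 C561 (k (a (k (a (r (nat_lit 0) (nat_lit 12816) (nat_lit 12816) [(nat_lit 18364758544421512515),(nat_lit 18364758544421512515),(nat_lit 18364758544493064720),(nat_lit 18364758544493064705)]) (a (r (nat_lit 0) (nat_lit 12816) (nat_lit 12816) [(nat_lit 18364758544475185680),(nat_lit 18364758544475185680),(nat_lit 18364758544493064720),(nat_lit 18364758544493064720)]) (a (r (nat_lit 1) (nat_lit 12816) (nat_lit 12816) [(nat_lit 18364758544493064720),(nat_lit 18364758544493064720),(nat_lit 18364758544493064720),(nat_lit 18364758544493064720)]) (a (t (nat_lit 6692098093360) e) (a (t (nat_lit 6692098093360) e) (a (t (nat_lit 6692115980336) e) e))))))) (a (r (nat_lit 2) (nat_lit 12816) (nat_lit 12816) [(nat_lit 18364758544491958800),(nat_lit 18364758544491958800),(nat_lit 18364758544493064720),(nat_lit 18364758544493064720)]) (a (r (nat_lit 3) (nat_lit 12816) (nat_lit 12816) [(nat_lit 18364758544493064720),(nat_lit 18364758544493064720),(nat_lit 18364758544493064720),(nat_lit 18364758544493064720)])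 (a (t (nat_lit 5588291498288) e) (a (r (nat_lit 4) (nat_lit 12816) (nat_lit 12816) [(nat_lit 18364758544493064720),(nat_lit 18364758544493064720),(nat_lit 18364758544493064720),(nat_lit 18364758544493064720)]) (a (t (nat_lit 5588309385264) e) e))))))) = true := by decide +kernel
theorem K634 : checkNode 4 2 6 U [] 3000 0 C634 (t (nat_lit 35408569315632) (a (t (nat_lit 6692116176944) e) (a (t (nat_lit 6687821209648) e) (a (t (nat_lit 6683526242352) e) (a (t (nat_lit 6679231275056) e) (a (t (nat_lit 6674936307760) e) (a (t (nat_lit 6670641340464) e) (a (t (nat_lit 6666346373168) e) (a (t (nat_lit 25315094372400) e) (a (t (nat_lit 5592604549168) e) (a (t (nat_lit 5588309581872) e) (a (t (nat_lit 5584014614576) e) (a (t (nat_lit 5579719647280) e) (a (t (nat_lit 5575424679984) e) (a (t (nat_lit 5571129712688) e) (a (t (nat_lit 5566834745392) e) (a (t (nat_lit 25310799405104) e) (a (t (nat_lit 4493092921392) e) (a (t (nat_lit 4488797954096) e) (a (t (nat_lit 4484502986800) e) (a (t (nat_lit 4480208019504) e) (a (t (nat_lit 4475913052208) e) (a (t (nat_lit 4471618084912)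 e) (a (t (nat_lit 4467323117616) e) (a (t (nat_lit 25306504437808) e) (a (t (nat_lit 3393581293616) e) (a (t (nat_lit 3389286326320) e) (a (t (nat_lit 3384991359024) e) (a (t (nat_lit 3380696391728) e) (a (t (nat_lit 3376401424432) e) (a (t (nat_lit 3372106457136) e) (a (t (nat_lit 3367811489840) e) (a (t (nat_lit 25302209470512) e) (a (t (nat_lit 2294069665840) e) (a (t (nat_lit 2289774698544) e) (a (t (nat_lit 2285479731248) e) (a (t (nat_lit 2281184763952) e) (a (t (nat_lit 2276889796656) e) (a (t (nat_lit 2272594829360) e) (a (t (nat_lit 2268299862064) e) (a (t (nat_lit 25297914503216) e) (a (t (nat_lit 1194558038064) e) (a (t (nat_lit 1190263070768) e) (a (t (nat_lit 1185968103472) e) (a (t (nat_lit 1181673136176) e) (a (t (nat_lit 1177378168880) e) (a (t (nat_lit 1173083201584) e) (a (t (nat_lit 1168788234288) e) (a (t (nat_lit 25293619535920) e) (a (t (nat_lit 95046410288) e) (a (t (nat_lit 90751442992) e) (a (t (nat_lit 86456475696) e) (a (t (nat_lit 82161508400) e) (a (t (nat_lit 77866541104) e) (a (t (nat_lit 73571573808) e) (a (t (nat_lit 69276606512)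 e) (a (t (nat_lit 25289324568624) e) (a (t (nat_lit 7791627804720) e) (a (t (nat_lit 7787332837424) e) (a (t (nat_lit 7783037870128) e) (a (t (nat_lit 7778742902832) e) (a (t (nat_lit 7774447935536) e) (a (t (nat_lit 7770152968240) e) (a (t (nat_lit 7765858000944) e) (a (t (nat_lit 7795922772016) e) e))))))))))))))))))))))))))))))))))))))))))))))))))))))))))))))))) = true := by decide +kernel
theorem K642 : checkNode 4 2 6 U [] 3000 0 C642 (t (nat_lit 6692114797360) (a (t (nat_lit 3445420728368) e) (a (t (nat_lit 3445404016688) e) (a (t (nat_lit 23236310217008) e) (a (t (nat_lit 5644125221168) e) e))))) = true := by decide +kernel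
theorem K644 : checkNode 4 2 6 U [(0,C537),(0,C344),(0,C634),(0,C642)] 3000 1 C644 (k (a (r (nat_lit 0) (nat_lit 12816) (nat_lit 12816) [(nat_lit 18364758544457552400),(nat_lit 18364758544457552400),(nat_lit 18364758544493064720),(nat_lit 18364758544493060400)]) (a (r (nat_lit 0) (nat_lit 12816) (nat_lit 12816) [(nat_lit 18364758544474325520),(nat_lit 18364758544474325520),(nat_lit 18364758544493064720),(nat_lit 18364758544493064480)]) (a (r (nat_lit 0) (nat_lit 12816) (nat_lit 12816) [(nat_lit 18364758544475370000),(nat_lit 18364758544475370000),(nat_lit 18364758544493064720),(nat_lit 18364758544493064720)]) (a (r (nat_lit 1) (nat_lit 12816) (nat_lit 12816) [(nat_lit 18364758544475185680),(nat_lit 18364758544475185680),(nat_lit 18364758544493064720),(nat_lit 18364758544493064720)]) (a (r (nat_lit 2) (nat_lit 12816) (nat_lit 12816) [(nat_lit 18364758544493064720),(nat_lit 18364758544493064720),(nat_lit 18364758544493064720),(nat_lit 18364758544493064720)]) (a (t (nat_lit 6692116045872) e) (a (t (nat_lit 6692115980336) e) (a (t (nat_lit 6692114805040) e) (a (r (nat_lit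 3) (nat_lit 12816) (nat_lit 12816) [(nat_lit 18364758544493064720),(nat_lit 18364758544493064720),(nat_lit 18364758544493064720),(nat_lit 18364758544493064720)]) (a (t (nat_lit 6692116111408) e) e))))))))))) = true := by decide +kernel
theorem K655 : checkNode 4 2 6 U [] 3000 0 C655 (t (nat_lit 36430452764976) (a (t (nat_lit 5648254443568) e) (a (t (nat_lit 3517916061744) e) (a (t (nat_lit 6747749294128) e) (a (t (nat_lit 4617410912304) e) e))))) = true := by decide +kernel
theorem K660 : checkNode 4 2 6 U [(0,C542),(0,C556),(0,C356),(0,C655),(0,C642)] 3000 1 C660 (k (a (t (nat_lit 6812373229616) e) (a (r (nat_lit 0) (nat_lit 12816) (nat_lit 12816) [(nat_lit 18364758544474325520),(nat_lit 18364758544474325520),(nat_lit 18364758544493064720),(nat_lit 18364758544493064480)]) (a (r (nat_lit 1) (nat_lit 8976) (nat_lit 8976) [(nat_lit 18364758544457552400),(nat_lit 18364758544457552400),(nat_lit 18364758544493064720),(nat_lit 18364758544493064720)]) (a (r (nat_lit 2) (nat_lit 12816) (nat_lit 12816) [(nat_lit 18364758544475185680),(nat_lit 18364758544475185680),(nat_lit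 18364758544493064720),(nat_lit 18364758544493064720)]) (a (r (nat_lit 3) (nat_lit 12816) (nat_lit 12816) [(nat_lit 18364758544493064720),(nat_lit 18364758544493064720),(nat_lit 18364758544493064720),(nat_lit 18364758544493064720)]) (a (t (nat_lit 6808078262320) e) (a (t (nat_lit 6692116045872) e) (a (r (nat_lit 0) (nat_lit 12816) (nat_lit 12816) [(nat_lit 18364758544475370000),(nat_lit 18364758544475370000),(nat_lit 18364758544493064720),(nat_lit 18364758544493064720)]) (a (r (nat_lit 4) (nat_lit 12816) (nat_lit 12816) [(nat_lit 18364758544477336080),(nat_lit 18364758544477336080),(nat_lit 18364758544493064720),(nat_lit 18364758544493064720)]) e)))))))))) = true := by decide +kernel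
theorem K662 : checkNode 4 2 6 U [(1,C544),(1,C358),(1,C644),(1,C660)] 3000 2 C662 (k (a (r (nat_lit 0) (nat_lit 12816) (nat_lit 12816) [(nat_lit 18364758544491037200),(nat_lit 18364758544491037200),(nat_lit 18364758544493064720),(nat_lit 18364758544493064480)]) (a (r (nat_lit 0) (nat_lit 12816) (nat_lit 12816) [(nat_lit 18364758544492081680),(nat_lit 18364758544492081680),(nat_lit 18364758544493064720),(nat_lit 18364758544493064720)]) (a (r (nat_lit 1) (nat_lit 12816) (nat_lit 12816) [(nat_lit 18364758544491958800),(nat_lit 18364758544491958800),(nat_lit 18364758544493064720),(nat_lit 18364758544493064720)]) (a (r (nat_lit 2) (nat_lit 12816) (nat_lit 12816) [(nat_lit 18364758544493064720),(nat_lit 18364758544493064720),(nat_lit 18364758544493064720),(nat_lit 18364758544493064720)]) (a (t (nat_lit 5588309385264) e) (a (t (nat_lit 5588308209968) e) (a (r (nat_lit 3) (nat_lit 12816) (nat_lit 12816) [(nat_lit 18364758544493064720),(nat_lit 18364758544493064720),(nat_lit 18364758544493064720),(nat_lit 18364758544493064720)]) (a (t (nat_lit 5588309450800) e) e)))))))))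 = true := by decide +kernel
theorem K672 : checkNode 4 2 6 U [(1,C559),(1,C368),(1,C660)] 3000 2 C672 (k (a (t (nat_lit 5588291498288) e) (a (r (nat_lit 0) (nat_lit 12816) (nat_lit 12816) [(nat_lit 18364758544492081680),(nat_lit 18364758544492081680),(nat_lit 18364758544493064720),(nat_lit 18364758544493064720)]) (a (t (nat_lit 5644410495024) e) (a (r (nat_lit 0) (nat_lit 8976) (nat_lit 8976) [(nat_lit 18364758544491037200),(nat_lit 18364758544491037200),(nat_lit 18364758544493064720),(nat_lit 18364758544493064720)]) (a (r (nat_lit 1) (nat_lit 12816) (nat_lit 12816) [(nat_lit 18364758544491958800),(nat_lit 18364758544491958800),(nat_lit 18364758544493064720),(nat_lit 18364758544493064720)]) (a (r (nat_lit 2) (nat_lit 8976) (nat_lit 8976) [(nat_lit 18364758544491037200),(nat_lit 18364758544491037200),(nat_lit 18364758544493064720),(nat_lit 18364758544493064720)]) (a (t (nat_lit 5712861536304) e) (a (r (nat_lit 2) (nat_lit 12816) (nat_lit 12816) [(nat_lit 18364758544492081680),(nat_lit 18364758544492081680),(nat_lit 18364758544493064720),(nat_lit 18364758544493064720)])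 e))))))))) = true := by decide +kernel
theorem K674 : checkNode 4 2 6 U [(2,C561),(2,C370),(2,C662),(2,C672)] 3000 3 C674 (k (a (r (nat_lit 0) (nat_lit 12816) (nat_lit 12816) [(nat_lit 18364758544493064720),(nat_lit 18364758544493064720),(nat_lit 18364758544493064720),(nat_lit 18364758544493064720)]) (a (r (nat_lit 1) (nat_lit 12816) (nat_lit 12816) [(nat_lit 18364758544493003280),(nat_lit 18364758544493003280),(nat_lit 18364758544493064720),(nat_lit 18364758544493064720)]) (a (r (nat_lit 2) (nat_lit 12816) (nat_lit 12816) [(nat_lit 18364758544493064720),(nat_lit 18364758544493064720),(nat_lit 18364758544493064720),(nat_lit 18364758544493064720)]) (a (t (nat_lit 4484484903216) e) (a (r (nat_lit 3) (nat_lit 12816) (nat_lit 12816) [(nat_lit 18364758544493064720),(nat_lit 18364758544493064720),(nat_lit 18364758544493064720),(nat_lit 18364758544493064720)]) (a (t (nat_lit 4484502790192) e) e))))))) = true := by decide +kernel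
theorem K739 : checkNode 4 2 6 U [] 3000 0 C739 (t (nat_lit 35404254556464) (a (t (nat_lit 6692116111408) e) (a (t (nat_lit 6687821144112) e) (a (t (nat_lit 6683526176816) e) (a (t (nat_lit 6679231209520) e) (a (t (nat_lit 6674936242224) e) (a (t (nat_lit 6670641274928) e) (a (t (nat_lit 6666346307632) e) (a (t (nat_lit 25315094306864) e) (a (t (nat_lit 5592604483632) e) (a (t (nat_lit 5588309516336) e) (a (t (nat_lit 5584014549040) e) (a (t (nat_lit 5579719581744) e) (a (t (nat_lit 5575424614448) e) (a (t (nat_lit 5571129647152) e) (a (t (nat_lit 5566834679856) e) (a (t (nat_lit 25310799339568) e) (a (t (nat_lit 3393581228080) e) (a (t (nat_lit 3389286260784) e) (a (t (nat_lit 3384991293488) e) (a (t (nat_lit 3380696326192) e) (a (t (nat_lit 3376401358896) e) (a (t (nat_lit 3372106391600) e) (a (t (nat_lit 3367811424304) e) (a (t (nat_lit 25302209404976) e) (a (t (nat_lit 2294069600304) e) (a (t (nat_lit 2289774633008) e) (a (t (nat_lit 2285479665712) e) (a (t (nat_lit 2281184698416) e) (a (t (nat_lit 2276889731120) e) (a (t (nat_lit 2272594763824) e) (a (t (nat_lit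 2268299796528) e) (a (t (nat_lit 25297914437680) e) (a (t (nat_lit 1194557972528) e) (a (t (nat_lit 1190263005232) e) (a (t (nat_lit 1185968037936) e) (a (t (nat_lit 1181673070640) e) (a (t (nat_lit 1177378103344) e) (a (t (nat_lit 1173083136048) e) (a (t (nat_lit 1168788168752) e) (a (t (nat_lit 25293619470384) e) (a (t (nat_lit 95046344752) e) (a (t (nat_lit 90751377456) e) (a (t (nat_lit 86456410160) e) (a (t (nat_lit 82161442864) e) (a (t (nat_lit 77866475568) e) (a (t (nat_lit 73571508272) e) (a (t (nat_lit 69276540976) e) (a (t (nat_lit 25289324503088) e) (a (t (nat_lit 7791627739184) e) (a (t (nat_lit 7787332771888) e) (a (t (nat_lit 7783037804592) e) (a (t (nat_lit 7778742837296) e) (a (t (nat_lit 7774447870000) e) (a (t (nat_lit 7770152902704) e) (a (t (nat_lit 7765857935408) e) (a (t (nat_lit 7795922706480) e) e))))))))))))))))))))))))))))))))))))))))))))))))))))))))) = true := by decide +kernel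
theorem K742 : checkNode 4 2 6 U [] 3000 0 C742 (t (nat_lit 37525669425456) (a (t (nat_lit 6739176071216) e) (a (t (nat_lit 24331093680176) e) e))) = true := by decide +kernel
theorem K744 : checkNode 4 2 6 U [(0,C742)] 3000 0 C744 (t (nat_lit 53902210839072) (a (r (nat_lit 0) (nat_lit 12816) (nat_lit 12816) [(nat_lit 18364758544493064720),(nat_lit 18364758544493064720),(nat_lit 18364758544493064720),(nat_lit 18364758544493064720)]) (a (r (nat_lit 0) (nat_lit 12801) (nat_lit 12801) [(nat_lit 18364758544493064720),(nat_lit 18364758544493064720),(nat_lit 18364758544493064720),(nat_lit 18364758544493064720)]) e))) = true := by decide +kernel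
theorem K819 : checkNode 4 2 6 U [] 3000 0 C819 (t (nat_lit 35408569315632) (a (t (nat_lit 6692116176944) e) (a (t (nat_lit 6687821209648) e) (a (t (nat_lit 6683526242352) e) (a (t (nat_lit 6679231275056) e) (a (t (nat_lit 6674936307760) e) (a (t (nat_lit 6670641340464) e) (a (t (nat_lit 6666346373168) e) (a (t (nat_lit 25315094372400) e) (a (t (nat_lit 5592604549168) e) (a (t (nat_lit 5588309581872) e) (a (t (nat_lit 5584014614576) e) (a (t (nat_lit 5579719647280) e) (a (t (nat_lit 5575424679984) e) (a (t (nat_lit 5571129712688) e) (a (t (nat_lit 5566834745392) e) (a (t (nat_lit 25310799405104) e) (a (t (nat_lit 4493092921392) e) (a (t (nat_lit 4488797954096) e) (a (t (nat_lit 4484502986800) e) (a (t (nat_lit 4480208019504) e) (a (t (nat_lit 4475913052208) e) (a (t (nat_lit 4471618084912) e) (a (t (nat_lit 4467323117616) e) (a (t (nat_lit 25306504437808) e) (a (t (nat_lit 3393581293616) e) (a (t (nat_lit 3389286326320) e) (a (t (nat_lit 3384991359024) e) (a (t (nat_lit 3380696391728) e) (a (t (nat_lit 3376401424432) e) (a (t (nat_lit 3372106457136) e) (a (t (nat_lit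 3367811489840) e) (a (t (nat_lit 25302209470512) e) (a (t (nat_lit 2294069665840) e) (a (t (nat_lit 2289774698544) e) (a (t (nat_lit 2285479731248) e) (a (t (nat_lit 2281184763952) e) (a (t (nat_lit 2276889796656) e) (a (t (nat_lit 2272594829360) e) (a (t (nat_lit 2268299862064) e) (a (t (nat_lit 25297914503216) e) (a (t (nat_lit 1194558038064) e) (a (t (nat_lit 1190263070768) e) (a (t (nat_lit 1185968103472) e) (a (t (nat_lit 1181673136176) e) (a (t (nat_lit 1177378168880) e) (a (t (nat_lit 1173083201584) e) (a (t (nat_lit 1168788234288) e) (a (t (nat_lit 25293619535920) e) (a (t (nat_lit 95046410288) e) (a (t (nat_lit 90751442992) e) (a (t (nat_lit 86456475696) e) (a (t (nat_lit 82161508400) e) (a (t (nat_lit 77866541104) e) (a (t (nat_lit 73571573808) e) (a (t (nat_lit 69276606512) e) (a (t (nat_lit 25289324568624) e) (a (t (nat_lit 7791627804720) e) (a (t (nat_lit 7787332837424) e) (a (t (nat_lit 7783037870128) e) (a (t (nat_lit 7778742902832) e) (a (t (nat_lit 7774447935536) e) (a (t (nat_lit 7770152968240) e) (a (t (nat_lit 7765858000944) e) (a (t (nat_lit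 7795922772016) e) e))))))))))))))))))))))))))))))))))))))))))))))))))))))))))))))))) = true := by decide +kernel
theorem K825 : checkNode 4 2 6 U [(0,C739),(0,C537),(0,C819)] 3000 1 C825 (k (a (r (nat_lit 0) (nat_lit 12816) (nat_lit 12816) [(nat_lit 18364758544460624400),(nat_lit 18364758544460624400),(nat_lit 18364758544493064720),(nat_lit 18364758544493060880)]) (a (r (nat_lit 0) (nat_lit 12816) (nat_lit 12816) [(nat_lit 18364758544477336080),(nat_lit 18364758544477336080),(nat_lit 18364758544493064720),(nat_lit 18364758544493064720)]) (a (r (nat_lit 1) (nat_lit 12816) (nat_lit 12816) [(nat_lit 18364758544475031090),(nat_lit 18364758544475031090),(nat_lit 18364758544493064720),(nat_lit 18364758544493064705)]) (a (r (nat_lit 1) (nat_lit 12816) (nat_lit 12816) [(nat_lit 18364758544475170320),(nat_lit 18364758544475170320),(nat_lit 18364758544493064720),(nat_lit 18364758544493064720)]) (a (r (nat_lit 2) (nat_lit 12816) (nat_lit 12816) [(nat_lit 18364758544493064720),(nat_lit 18364758544493064720),(nat_lit 18364758544493064720),(nat_lit 18364758544493064720)]) (a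 (t (nat_lit 6692116045872) e) (a (t (nat_lit 6692115980336) e) (a (t (nat_lit 6692114805040) e) (a (t (nat_lit 6692114805040) e) (a (t (nat_lit 6692116111408) e) e))))))))))) = true := by decide +kernel
theorem K831 : checkNode 4 2 6 U [] 3000 0 C831 (t (nat_lit 36430452764976) (a (t (nat_lit 56225786306608) e) (a (t (nat_lit 56225518919728) e) e))) = true := by decide +kernel
theorem K838 : checkNode 4 2 6 U [(0,C744),(0,C831)] 3000 1 C838 (k (a (t (nat_lit 36498986512688) (a (t (nat_lit 56221491339312) e) e)) (a (r (nat_lit 0) (nat_lit 12816) (nat_lit 12816) [(nat_lit 18364758544477336080),(nat_lit 18364758544477336080),(nat_lit 18364758544493064720),(nat_lit 18364758544493064720)]) (a (r (nat_lit 1) (nat_lit 12816) (nat_lit 12816) [(nat_lit 18364758544493064720),(nat_lit 18364758544493064720),(nat_lit 18364758544493064720),(nat_lit 18364758544493064720)]) (a (t (nat_lit 5712863368480) e) (a (t (nat_lit 53897899094560) e) (a (t (nat_lit 5712861536304) e) (a (t (nat_lit 5712861536304) e) (a (t (nat_lit 5588309385264) e) (a (t (nat_lit 5588309385264) e) e))))))))))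 = true := by decide +kernel
theorem K846 : checkNode 4 2 6 U [] 3000 0 C846 (t (nat_lit 36430452764976) (a (t (nat_lit 56225786306608) e) (a (t (nat_lit 56225518919728) e) e))) = true := by decide +kernel
theorem K851 : checkNode 4 2 6 U [(0,C744),(0,C542),(0,C846)] 3000 1 C851 (k (a (t (nat_lit 6812373233952) e) (a (r (nat_lit 0) (nat_lit 12816) (nat_lit 12816) [(nat_lit 18364758544474072080),(nat_lit 18364758544474072080),(nat_lit 18364758544493064720),(nat_lit 18364758544493064480)]) (a (t (nat_lit 24327251702064) (a (t (nat_lit 56221223952432) e) e)) (a (r (nat_lit 1) (nat_lit 12816) (nat_lit 12816) [(nat_lit 18364758544475031090),(nat_lit 18364758544475031090),(nat_lit 18364758544493064720),(nat_lit 18364758544493064705)]) (a (r (nat_lit 2) (nat_lit 12816) (nat_lit 12816) [(nat_lit 18364758544493064720),(nat_lit 18364758544493064720),(nat_lit 18364758544493064720),(nat_lit 18364758544493064720)]) (a (t (nat_lit 24400264241200) e) (a (t (nat_lit 5708566569008) e) (a (t (nat_lit 5588308209968) e) (a (t (nat_lit 5588308209968) e) e)))))))))) = true := by decide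 +kernel
theorem K854 : checkNode 4 2 6 U [(0,C478),(0,C739),(0,C744),(1,C544),(1,C825),(1,C838),(1,C851)] 3000 2 C854 (k (a (k (a (r (nat_lit 0) (nat_lit 12816) (nat_lit 12816) [(nat_lit 18364758544439379540),(nat_lit 18364758544439379540),(nat_lit 18364758544493064720),(nat_lit 18364758544493064450)]) (a (r (nat_lit 0) (nat_lit 12816) (nat_lit 12816) [(nat_lit 18364758544475031090),(nat_lit 18364758544475031090),(nat_lit 18364758544493064720),(nat_lit 18364758544493064705)]) (a (r (nat_lit 0) (nat_lit 12816) (nat_lit 12816) [(nat_lit 18364758544475170320),(nat_lit 18364758544475170320),(nat_lit 18364758544493064720),(nat_lit 18364758544493064720)]) (a (r (nat_lit 1) (nat_lit 12816) (nat_lit 12816) [(nat_lit 18364758544493064720),(nat_lit 18364758544493064720),(nat_lit 18364758544493064720),(nat_lit 18364758544493064720)]) (a (r (nat_lit 2) (nat_lit 12816) (nat_lit 12816) [(nat_lit 18364758544493064720),(nat_lit 18364758544493064720),(nat_lit 18364758544493064720),(nat_lit 18364758544493064720)]) (a (r (nat_lit 2) (nat_lit 12816) (nat_lit 12816) [(nat_lit 18364758544490845200),(nat_lit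 18364758544490845200),(nat_lit 18364758544493064720),(nat_lit 18364758544493064480)]) (a (r (nat_lit 2) (nat_lit 12816) (nat_lit 12816) [(nat_lit 18364758544488617010),(nat_lit 18364758544488617010),(nat_lit 18364758544493064720),(nat_lit 18364758544493064225)]) (a (t (nat_lit 6692116045872) e) e))))))))) (a (r (nat_lit 3) (nat_lit 12816) (nat_lit 12816) [(nat_lit 18364758544491808050),(nat_lit 18364758544491808050),(nat_lit 18364758544493064720),(nat_lit 18364758544493064705)]) (a (r (nat_lit 3) (nat_lit 12816) (nat_lit 12816) [(nat_lit 18364758544491947280),(nat_lit 18364758544491947280),(nat_lit 18364758544493064720),(nat_lit 18364758544493064720)]) (a (r (nat_lit 4) (nat_lit 12816) (nat_lit 12816) [(nat_lit 18364758544493064720),(nat_lit 18364758544493064720),(nat_lit 18364758544493064720),(nat_lit 18364758544493064720)]) (a (r (nat_lit 5) (nat_lit 12816) (nat_lit 12816) [(nat_lit 18364758544493064720),(nat_lit 18364758544493064720),(nat_lit 18364758544493064720),(nat_lit 18364758544493064720)]) (a (r (nat_lit 6) (nat_lit 12816) (nat_lit 12816) [(nat_lit 18364758544493064720),(nat_lit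 18364758544493064720),(nat_lit 18364758544493064720),(nat_lit 18364758544493064720)]) (a (r (nat_lit 6) (nat_lit 12816) (nat_lit 12816) [(nat_lit 18364758544493056050),(nat_lit 18364758544493056050),(nat_lit 18364758544493064720),(nat_lit 18364758544493064705)]) (a (t (nat_lit 5588309450800) e) e))))))))) = true := by decide +kernel
theorem K865 : checkNode 4 2 6 U [(0,C551)] 3000 1 C865 (k (a (t (nat_lit 17665739534640) e) (a (r (nat_lit 0) (nat_lit 12816) (nat_lit 12816) [(nat_lit 18364758544475031090),(nat_lit 18364758544475031090),(nat_lit 18364758544493064720),(nat_lit 18364758544493064705)]) (a (t (nat_lit 18838282318128) (a (t (nat_lit 38488041861424) e) e)) (a (t (nat_lit 52983255609648) e) (a (t (nat_lit 22080965914928) e) (a (t (nat_lit 52923126067504) e) (a (t (nat_lit 52914554024240) e) (a (t (nat_lit 55118138712112) (a (t (nat_lit 56221474496560) e) e)) e))))))))) = true := by decide +kernel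
theorem K874 : checkNode 4 2 6 U [] 3000 0 C874 (t (nat_lit 36430501916976) (a (t (nat_lit 39655973204272) e) (a (t (nat_lit 39651678236976) e) e))) = true := by decide +kernel
theorem K880 : checkNode 4 2 6 U [(0,C556),(0,C874),(0,C846)] 3000 1 C880 (k (a (t (nat_lit 18834004128048) (a (t (nat_lit 38488041861424) e) e)) (a (t (nat_lit 37525669359632) (a (t (nat_lit 38483746959664) e) e)) (a (r (nat_lit 0) (nat_lit 12816) (nat_lit 12816) [(nat_lit 18364758544475031090),(nat_lit 18364758544475031090),(nat_lit 18364758544493064720),(nat_lit 18364758544493064705)]) (a (r (nat_lit 1) (nat_lit 12816) (nat_lit 12816) [(nat_lit 18364758544493064720),(nat_lit 18364758544493064720),(nat_lit 18364758544493064720),(nat_lit 18364758544493064720)]) (a (t (nat_lit 52918864589104) e) (a (t (nat_lit 52923142779184) e) (a (t (nat_lit 4540603834416) e) (a (t (nat_lit 36430501916976) e) (a (r (nat_lit 2) (nat_lit 12816) (nat_lit 12816) [(nat_lit 18364758544475370000),(nat_lit 18364758544475370000),(nat_lit 18364758544493064720),(nat_lit 18364758544493064720)]) e)))))))))) = true :=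 by decide +kernel
theorem K891 : checkNode 4 2 6 U [] 3000 1 C891 (k (a (t (nat_lit 52918864589104) e) (a (t (nat_lit 52923126067504) e) (a (t (nat_lit 5644393722144) e) (a (t (nat_lit 36434780107056) e) (a (t (nat_lit 52918831165744) e) (a (t (nat_lit 52923142779184) e) (a (t (nat_lit 4540603834416) e) (a (t (nat_lit 37534274957616) e) e))))))))) = true := by decide +kernel
theorem K900 : checkNode 4 2 6 U [] 3000 1 C900 (k (a (t (nat_lit 52914554024240) e) (a (t (nat_lit 5712861540640) e) (a (t (nat_lit 52914554024240) e) (a (t (nat_lit 5712861540640) e) (a (t (nat_lit 52914554024240) e) (a (t (nat_lit 35326964937008) e) (a (t (nat_lit 4609054875696) e) (a (t (nat_lit 4609054875696) e) e))))))))) = true := by decide +kernel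
theorem K902 : checkNode 4 2 6 U [(1,C865),(1,C559),(1,C880),(1,C891),(1,C900),(1,C851)] 3000 2 C902 (k (a (r (nat_lit 0) (nat_lit 12816) (nat_lit 12816) [(nat_lit 18364758544493064720),(nat_lit 18364758544493064720),(nat_lit 18364758544493064720),(nat_lit 18364758544493064720)]) (a (r (nat_lit 1) (nat_lit 12816) (nat_lit 12816) [(nat_lit 18364758544491808050),(nat_lit 18364758544491808050),(nat_lit 18364758544493064720),(nat_lit 18364758544493064705)]) (a (r (nat_lit 2) (nat_lit 12816) (nat_lit 12816) [(nat_lit 18364758544493064720),(nat_lit 18364758544493064720),(nat_lit 18364758544493064720),(nat_lit 18364758544493064720)]) (a (t (nat_lit 22080965914928) e) (a (t (nat_lit 4484484903216) e) (a (r (nat_lit 3) (nat_lit 12816) (nat_lit 12816) [(nat_lit 18364758544493064720),(nat_lit 18364758544493064720),(nat_lit 18364758544493064720),(nat_lit 18364758544493064720)]) (a (r (nat_lit 4) (nat_lit 12816) (nat_lit 12816) [(nat_lit 18364758544493064720),(nat_lit 18364758544493064720),(nat_lit 18364758544493064720),(nat_lit 18364758544493064720)]) (a (r (nat_lit 5) (nat_lit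 12816) (nat_lit 12816) [(nat_lit 18364758544492081680),(nat_lit 18364758544492081680),(nat_lit 18364758544493064720),(nat_lit 18364758544493064720)]) e))))))))) = true := by decide +kernel
theorem K914 : checkNode 4 2 6 U [] 3000 1 C914 (k (a (t (nat_lit 52914554024240) e) (a (t (nat_lit 23227740074288) (a (t (nat_lit 56221207109680) e) e)) (a (t (nat_lit 37525669425456) e) (a (t (nat_lit 52914554024240) e) (a (t (nat_lit 23300754510880) e) (a (t (nat_lit 52914554024240) e) (a (t (nat_lit 35326964937008) e) (a (t (nat_lit 23232318283824) e) (a (t (nat_lit 22080983801904) e) e)))))))))) = true := by decide +kernel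
theorem K925 : checkNode 4 2 6 U [] 3000 0 C925 (t (nat_lit 56212635922736) (a (t (nat_lit 35335268544816) (a (t (nat_lit 36421896384816) e) (a (t (nat_lit 38620919640368) e) e))) (a (t (nat_lit 35408569315632) (a (t (nat_lit 35271130362160) e) (a (t (nat_lit 57312382431536) e) e))) e))) = true := by decide +kernel
theorem K927 : checkNode 4 2 6 U [(0,C925)] 3000 0 C927 (t (nat_lit 35399204614448) (a (r (nat_lit 0) (nat_lit 12816) (nat_lit 12816) [(nat_lit 18364758544493064720),(nat_lit 18364758544493064720),(nat_lit 18364758544493064720),(nat_lit 18364758544493064720)]) (a (r (nat_lit 0) (nat_lit 12816) (nat_lit 12816) [(nat_lit 18364758544492081680),(nat_lit 18364758544492081680),(nat_lit 18364758544493064480),(nat_lit 18364758544493064720)]) e))) = true := by decide +kernel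
theorem K931 : checkNode 4 2 6 U [(0,C831),(0,C927)] 3000 1 C931 (k (a (t (nat_lit 36430452764976) e) (a (t (nat_lit 37525669425456) e) (a (r (nat_lit 0) (nat_lit 12816) (nat_lit 12816) [(nat_lit 18364758544475370000),(nat_lit 18364758544475370000),(nat_lit 18364758544493064720),(nat_lit 18364758544493064720)]) (a (r (nat_lit 1) (nat_lit 12816) (nat_lit 12816) [(nat_lit 18364758544493064720),(nat_lit 18364758544493064720),(nat_lit 18364758544493064720),(nat_lit 18364758544493064720)]) (a (t (nat_lit 53893806560288) e) (a (t (nat_lit 4540620611632) e) (a (t (nat_lit 4540620611632) e) e)))))))) = true := by decide +kernel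
theorem K943 : checkNode 4 2 6 U [] 3000 0 C943 (t (nat_lit 35335268544816) (a (t (nat_lit 35279433969968) e) (a (t (nat_lit 35278948544816) e) e))) = true := by decide +kernel
theorem K945 : checkNode 4 2 6 U [(0,C943)] 3000 0 C945 (t (nat_lit 37521391235376) (a (r (nat_lit 0) (nat_lit 12816) (nat_lit 12816) [(nat_lit 18364758544493064720),(nat_lit 18364758544493064720),(nat_lit 18364758544493064720),(nat_lit 18364758544493064720)]) (a (r (nat_lit 0) (nat_lit 12801) (nat_lit 12801) [(nat_lit 18364758544477336080),(nat_lit 18364758544477336080),(nat_lit 18364758544493064720),(nat_lit 18364758544493003280)]) e))) = true := by decide +kernel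
theorem K947 : checkNode 4 2 6 U [(0,C945)] 3000 0 C947 (t (nat_lit 56298970362160) (a (r (nat_lit 0) (nat_lit 12816) (nat_lit 12816) [(nat_lit 18364758544493064720),(nat_lit 18364758544493064720),(nat_lit 18364758544493064720),(nat_lit 18364758544493064720)]) (a (r (nat_lit 0) (nat_lit 12801) (nat_lit 12801) [(nat_lit 18364758544493064720),(nat_lit 18364758544493064720),(nat_lit 18364758544493064720),(nat_lit 18364758544493064720)]) e))) = true := by decide +kernel
theorem K951 : checkNode 4 2 6 U [(0,C947)] 3000 1 C951 (k (a (t (nat_lit 35326964937008) e) (a (t (nat_lit 4613349842992) e) (a (t (nat_lit 35326964937008) e) (a (t (nat_lit 53894090658848) e) (a (t (nat_lit 35326964937008) e) (a (t (nat_lit 35326964937008) e) (a (r (nat_lit 0) (nat_lit 12816) (nat_lit 12816) [(nat_lit 18364758544493064720),(nat_lit 18364758544493064720),(nat_lit 18364758544493064720),(nat_lit 18364758544493064720)]) (a (t (nat_lit 4613349842992) e) (a (t (nat_lit 4613349842992) e) (a (t (nat_lit 4613349842992) e) e))))))))))) = true := by decide +kernel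
theorem K954 : checkNode 4 2 6 U [(1,C914),(1,C838),(1,C931),(1,C900),(1,C951)] 3000 2 C954 (k (a (r (nat_lit 0) (nat_lit 12816) (nat_lit 12816) [(nat_lit 18364758544493064720),(nat_lit 18364758544493064720),(nat_lit 18364758544493064720),(nat_lit 18364758544493064720)]) (a (r (nat_lit 1) (nat_lit 12816) (nat_lit 12816) [(nat_lit 18364758544492081680),(nat_lit 18364758544492081680),(nat_lit 18364758544493064720),(nat_lit 18364758544493064720)]) (a (r (nat_lit 2) (nat_lit 12816) (nat_lit 12816) [(nat_lit 18364758544493064720),(nat_lit 18364758544493064720),(nat_lit 18364758544493064720),(nat_lit 18364758544493064720)]) (a (r (nat_lit 3) (nat_lit 12816) (nat_lit 12816) [(nat_lit 18364758544492081680),(nat_lit 18364758544492081680),(nat_lit 18364758544493064720),(nat_lit 18364758544493064720)]) (a (t (nat_lit 53893587350048) e) (a (r (nat_lit 3) (nat_lit 12816) (nat_lit 12816) [(nat_lit 18364758544492073010),(nat_lit 18364758544492073010),(nat_lit 18364758544493064720),(nat_lit 18364758544493064705)]) (a (r (nat_lit 4) (nat_lit 12816) (nat_lit 12816) [(nat_lit 18364758544493064720),(nat_lit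 18364758544493064720),(nat_lit 18364758544493064720),(nat_lit 18364758544493064720)]) (a (t (nat_lit 4484502790192) e) (a (t (nat_lit 4484502790192) e) e)))))))))) = true := by decide +kernel
theorem K1097 : checkNode 4 2 6 U [] 3000 0 C1097 (t (nat_lit 57402778071344) (a (t (nat_lit 6692116045872) e) (a (t (nat_lit 6692116242480) e) (a (t (nat_lit 6687821078576) e) (a (t (nat_lit 6687821275184) e) (a (t (nat_lit 6683526111280) e) (a (t (nat_lit 6683526307888) e) (a (t (nat_lit 6679231143984) e) (a (t (nat_lit 6679231340592) e) (a (t (nat_lit 6674936176688) e) (a (t (nat_lit 6674936373296) e) (a (t (nat_lit 6670641209392) e) (a (t (nat_lit 6670641406000) e) (a (t (nat_lit 6666346242096) e) (a (t (nat_lit 6666346438704) e) (a (t (nat_lit 25315094241328) e) (a (t (nat_lit 25315094437936) e) (a (t (nat_lit 5592604418096) e) (a (t (nat_lit 5592604614704) e) (a (t (nat_lit 5588309450800) e) (a (t (nat_lit 5588309647408) e) (a (t (nat_lit 5584014483504) e) (a (t (nat_lit 5584014680112) e) (a (t (nat_lit 5579719516208) e) (a (t (nat_lit 5579719712816) e) (a (t (nat_lit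 5575424548912) e) (a (t (nat_lit 5575424745520) e) (a (t (nat_lit 5571129581616) e) (a (t (nat_lit 5571129778224) e) (a (t (nat_lit 5566834614320) e) (a (t (nat_lit 5566834810928) e) (a (t (nat_lit 25310799274032) e) (a (t (nat_lit 25310799470640) e) (a (t (nat_lit 4493092790320) e) (a (t (nat_lit 4493092986928) e) (a (t (nat_lit 4488797823024) e) (a (t (nat_lit 4488798019632) e) (a (t (nat_lit 4484502855728) e) (a (t (nat_lit 4484503052336) e) (a (t (nat_lit 4480207888432) e) (a (t (nat_lit 4480208085040) e) (a (t (nat_lit 4475912921136) e) (a (t (nat_lit 4475913117744) e) (a (t (nat_lit 4471617953840) e) (a (t (nat_lit 4471618150448) e) (a (t (nat_lit 4467322986544) e) (a (t (nat_lit 4467323183152) e) (a (t (nat_lit 25306504306736) e) (a (t (nat_lit 25306504503344) e) (a (t (nat_lit 3393581162544) e) (a (t (nat_lit 3393581359152) e) (a (t (nat_lit 3389286195248) e) (a (t (nat_lit 3389286391856) e) (a (t (nat_lit 3384991227952) e) (a (t (nat_lit 3384991424560) e) (a (t (nat_lit 3380696260656) e) (a (t (nat_lit 3380696457264) e) (a (t (nat_lit 3376401293360) e)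 (a (t (nat_lit 3376401489968) e) (a (t (nat_lit 3372106326064) e) (a (t (nat_lit 3372106522672) e) (a (t (nat_lit 3367811358768) e) (a (t (nat_lit 3367811555376) e) (a (t (nat_lit 25302209339440) e) (a (t (nat_lit 25302209536048) e) (a (t (nat_lit 2294069534768) e) (a (t (nat_lit 2294069731376) e) (a (t (nat_lit 2289774567472) e) (a (t (nat_lit 2289774764080) e) (a (t (nat_lit 2285479600176) e) (a (t (nat_lit 2285479796784) e) (a (t (nat_lit 2281184632880) e) (a (t (nat_lit 2281184829488) e) (a (t (nat_lit 2276889665584) e) (a (t (nat_lit 2276889862192) e) (a (t (nat_lit 2272594698288) e) (a (t (nat_lit 2272594894896) e) (a (t (nat_lit 2268299730992) e) (a (t (nat_lit 2268299927600) e) (a (t (nat_lit 25297914372144) e) (a (t (nat_lit 25297914568752) e) (a (t (nat_lit 1194557906992) e) (a (t (nat_lit 1194558103600) e) (a (t (nat_lit 1190262939696) e) (a (t (nat_lit 1190263136304) e) (a (t (nat_lit 1185967972400) e) (a (t (nat_lit 1185968169008) e) (a (t (nat_lit 1181673005104) e) (a (t (nat_lit 1181673201712) e) (a (t (nat_lit 1177378037808) e) (a (t (nat_lit 1177378234416)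 e) (a (t (nat_lit 1173083070512) e) (a (t (nat_lit 1173083267120) e) (a (t (nat_lit 1168788103216) e) (a (t (nat_lit 1168788299824) e) (a (t (nat_lit 25293619404848) e) (a (t (nat_lit 25293619601456) e) (a (t (nat_lit 95046279216) e) (a (t (nat_lit 95046475824) e) (a (t (nat_lit 90751311920) e) (a (t (nat_lit 90751508528) e) (a (t (nat_lit 86456344624) e) (a (t (nat_lit 86456541232) e) (a (t (nat_lit 82161377328) e) (a (t (nat_lit 82161573936) e) (a (t (nat_lit 77866410032) e) (a (t (nat_lit 77866606640) e) (a (t (nat_lit 73571442736) e) (a (t (nat_lit 73571639344) e) (a (t (nat_lit 69276475440) e) (a (t (nat_lit 69276672048) e) (a (t (nat_lit 25289324437552) e) (a (t (nat_lit 25289324634160) e) (a (t (nat_lit 7791627673648) e) (a (t (nat_lit 7791627870256) e) (a (t (nat_lit 7787332706352) e) (a (t (nat_lit 7787332902960) e) (a (t (nat_lit 7783037739056) e) (a (t (nat_lit 7783037935664) e) (a (t (nat_lit 7778742771760) e) (a (t (nat_lit 7778742968368) e) (a (t (nat_lit 7774447804464) e) (a (t (nat_lit 7774448001072) e) (a (t (nat_lit 7770152837168) e) (a (t (nat_lit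 7770153033776) e) (a (t (nat_lit 7765857869872) e) (a (t (nat_lit 7765858066480) e) (a (t (nat_lit 7795922640944) e) (a (t (nat_lit 7795922837552) e) e))))))))))))))))))))))))))))))))))))))))))))))))))))))))))))))))))))))))))))))))))))))))))))))))))))))))))))))))))))))))))))))))) = true := by decide +kernel
theorem K1104 : checkNode 4 2 6 U [(0,C819),(0,C634),(0,C1097)] 3000 1 C1104 (k (a (r (nat_lit 0) (nat_lit 12816) (nat_lit 12816) [(nat_lit 18364758544457295120),(nat_lit 18364758544457295120),(nat_lit 18364758544493064720),(nat_lit 18364758544492994880)]) (a (r (nat_lit 0) (nat_lit 12816) (nat_lit 12816) [(nat_lit 18364758544474072080),(nat_lit 18364758544474072080),(nat_lit 18364758544493064720),(nat_lit 18364758544493060400)]) (a (r (nat_lit 0) (nat_lit 12816) (nat_lit 12816) [(nat_lit 18364758544475120400),(nat_lit 18364758544475120400),(nat_lit 18364758544493064720),(nat_lit 18364758544493064480)]) (a (r (nat_lit 0) (nat_lit 12816) (nat_lit 12816) [(nat_lit 18364758544475185680),(nat_lit 18364758544475185680),(nat_lit 18364758544493064720),(nat_lit 18364758544493064720)])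 (a (r (nat_lit 1) (nat_lit 12816) (nat_lit 12816) [(nat_lit 18364758544475170320),(nat_lit 18364758544475170320),(nat_lit 18364758544493064720),(nat_lit 18364758544493064720)]) (a (r (nat_lit 2) (nat_lit 12816) (nat_lit 12816) [(nat_lit 18364758544493064720),(nat_lit 18364758544493064720),(nat_lit 18364758544493064720),(nat_lit 18364758544493064720)]) (a (t (nat_lit 6692116111408) e) (a (t (nat_lit 6692116045872) e) (a (t (nat_lit 6692115980336) e) (a (t (nat_lit 6692114805040) e) (a (t (nat_lit 6692114805040) e) (a (t (nat_lit 6692116176944) e) e))))))))))))) = true := by decide +kernel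
theorem K1118 : checkNode 4 2 6 U [] 3000 0 C1118 (t (nat_lit 55195180605488) (a (t (nat_lit 38629307068720) e) (a (t (nat_lit 38629308375088) e) (a (t (nat_lit 38569343398192) e) (a (t (nat_lit 38624995324208) e) (a (t (nat_lit 38624996630576) e) (a (t (nat_lit 38500624970032) e) e))))))) = true := by decide +kernel
theorem K1125 : checkNode 4 2 6 U [(0,C874),(0,C642),(0,C1118)] 3000 1 C1125 (k (a (t (nat_lit 23184790462512) e) (a (t (nat_lit 56096922345520) e) (a (r (nat_lit 0) (nat_lit 8976) (nat_lit 8976) [(nat_lit 18364758544457273445),(nat_lit 18364758544457273445),(nat_lit 18364758544493064720),(nat_lit 18364758544493064705)]) (a (r (nat_lit 1) (nat_lit 12816) (nat_lit 12816) [(nat_lit 18364758544475170320),(nat_lit 18364758544475170320),(nat_lit 18364758544493064720),(nat_lit 18364758544493064720)]) (a (r (nat_lit 2) (nat_lit 12816) (nat_lit 12816) [(nat_lit 18364758544493064720),(nat_lit 18364758544493064720),(nat_lit 18364758544493064720),(nat_lit 18364758544493064720)]) (a (t (nat_lit 23184790396976) e) (a (t (nat_lit 23184789221680) e) (a (t (nat_lit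 23184790528048) e) (a (t (nat_lit 54997410717744) e) (a (t (nat_lit 5588308209968) e) (a (t (nat_lit 5588308209968) e) e)))))))))))) = true := by decide +kernel
theorem K1127 : checkNode 4 2 6 U [(1,C825),(1,C644),(1,C1104),(1,C1125)] 3000 2 C1127 (k (a (r (nat_lit 0) (nat_lit 12816) (nat_lit 12816) [(nat_lit 18364758544490845200),(nat_lit 18364758544490845200),(nat_lit 18364758544493064720),(nat_lit 18364758544493060400)]) (a (r (nat_lit 0) (nat_lit 12816) (nat_lit 12816) [(nat_lit 18364758544491893520),(nat_lit 18364758544491893520),(nat_lit 18364758544493064720),(nat_lit 18364758544493064480)]) (a (r (nat_lit 0) (nat_lit 12816) (nat_lit 12816) [(nat_lit 18364758544491958800),(nat_lit 18364758544491958800),(nat_lit 18364758544493064720),(nat_lit 18364758544493064720)]) (a (r (nat_lit 1) (nat_lit 12816) (nat_lit 12816) [(nat_lit 18364758544491947280),(nat_lit 18364758544491947280),(nat_lit 18364758544493064720),(nat_lit 18364758544493064720)]) (a (r (nat_lit 2) (nat_lit 12816) (nat_lit 12816) [(nat_lit 18364758544493064720),(nat_lit 18364758544493064720),(nat_lit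 18364758544493064720),(nat_lit 18364758544493064720)]) (a (t (nat_lit 5588309450800) e) (a (t (nat_lit 5588309385264) e) (a (t (nat_lit 5588308209968) e) (a (r (nat_lit 3) (nat_lit 12816) (nat_lit 12816) [(nat_lit 18364758544493064720),(nat_lit 18364758544493064720),(nat_lit 18364758544493064720),(nat_lit 18364758544493064720)]) (a (t (nat_lit 5588309516336) e) e))))))))))) = true := by decide +kernel
theorem K1139 : checkNode 4 2 6 U [] 3000 1 C1139 (k (a (t (nat_lit 52914554024240) e) (a (t (nat_lit 23227740074288) (a (t (nat_lit 56221207109680) e) e)) (a (t (nat_lit 37525669425456) e) (a (t (nat_lit 52914554024240) e) (a (t (nat_lit 36498969735472) (a (t (nat_lit 56221474496560) e) e)) (a (t (nat_lit 52914554024240) e) (a (t (nat_lit 35326964937008) e) (a (t (nat_lit 23232318283824) e) (a (t (nat_lit 22080983801904) e) e)))))))))) = true := by decide +kernel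
theorem K1146 : checkNode 4 2 6 U [] 3000 0 C1146 (t (nat_lit 55066113356080) (a (t (nat_lit 38629776891952) e) (a (t (nat_lit 38698227933232) e) e))) = true := by decide +kernel
theorem K1150 : checkNode 4 2 6 U [(0,C846),(0,C1146),(0,C831)] 3000 1 C1150 (k (a (t (nat_lit 36430452764976) e) (a (t (nat_lit 37525669425456) e) (a (r (nat_lit 0) (nat_lit 12816) (nat_lit 12816) [(nat_lit 18364758544475120400),(nat_lit 18364758544475120400),(nat_lit 18364758544493064720),(nat_lit 18364758544493064480)]) (a (r (nat_lit 1) (nat_lit 12816) (nat_lit 12816) [(nat_lit 18364758544493064720),(nat_lit 18364758544493064720),(nat_lit 18364758544493064720),(nat_lit 18364758544493064720)]) (a (r (nat_lit 2) (nat_lit 12816) (nat_lit 12816) [(nat_lit 18364758544475185680),(nat_lit 18364758544475185680),(nat_lit 18364758544493064720),(nat_lit 18364758544493064720)]) (a (t (nat_lit 4540620611632) e) (a (t (nat_lit 4540620611632) e) e)))))))) = true := by decide +kernel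
theorem K1159 : checkNode 4 2 6 U [] 3000 1 C1159 (k (a (t (nat_lit 52914554024240) e) (a (t (nat_lit 5708566573600) e) (a (t (nat_lit 52914554024240) e) (a (t (nat_lit 4613351740448) e) (a (t (nat_lit 52914554024240) e) (a (t (nat_lit 35326964937008) e) (a (t (nat_lit 4613349842992) e) (a (t (nat_lit 4613349842992) e) e))))))))) = true := by decide +kernel
theorem K1165 : checkNode 4 2 6 U [(1,C1139),(1,C851),(1,C1150),(1,C1159),(1,C838)] 3000 2 C1165 (k (a (r (nat_lit 0) (nat_lit 12816) (nat_lit 12816) [(nat_lit 18364758544493064720),(nat_lit 18364758544493064720),(nat_lit 18364758544493064720),(nat_lit 18364758544493064720)]) (a (r (nat_lit 1) (nat_lit 12816) (nat_lit 12816) [(nat_lit 18364758544491893520),(nat_lit 18364758544491893520),(nat_lit 18364758544493064720),(nat_lit 18364758544493064480)]) (a (r (nat_lit 2) (nat_lit 12816) (nat_lit 12816) [(nat_lit 18364758544493064720),(nat_lit 18364758544493064720),(nat_lit 18364758544493064720),(nat_lit 18364758544493064720)]) (a (r (nat_lit 3) (nat_lit 12816) (nat_lit 12816) [(nat_lit 18364758544493064720),(nat_lit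 18364758544493064720),(nat_lit 18364758544493064720),(nat_lit 18364758544493064720)]) (a (r (nat_lit 4) (nat_lit 12816) (nat_lit 12816) [(nat_lit 18364758544491958800),(nat_lit 18364758544491958800),(nat_lit 18364758544493064720),(nat_lit 18364758544493064720)]) (a (t (nat_lit 4613349842992) e) (a (t (nat_lit 4613349842992) e) (a (t (nat_lit 4484502790192) e) (a (t (nat_lit 4484502790192) e) e)))))))))) = true := by decide +kernel
theorem K1178 : checkNode 4 2 6 U [(0,C846),(0,C655),(0,C1118)] 3000 1 C1178 (k (a (r (nat_lit 0) (nat_lit 12816) (nat_lit 12816) [(nat_lit 18364758544475099235),(nat_lit 18364758544475099235),(nat_lit 18364758544493064720),(nat_lit 18364758544493064450)]) (a (r (nat_lit 0) (nat_lit 8976) (nat_lit 8976) [(nat_lit 18364758544439578725),(nat_lit 18364758544439578725),(nat_lit 18364758544493064720),(nat_lit 18364758544493064450)]) (a (r (nat_lit 0) (nat_lit 8976) (nat_lit 8976) [(nat_lit 18364758544439644260),(nat_lit 18364758544439644260),(nat_lit 18364758544493064720),(nat_lit 18364758544493064705)]) (a (r (nat_lit 1) (nat_lit 12816) (nat_lit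 12816) [(nat_lit 18364758544475170320),(nat_lit 18364758544475170320),(nat_lit 18364758544493064720),(nat_lit 18364758544493064720)]) (a (r (nat_lit 2) (nat_lit 8976) (nat_lit 8976) [(nat_lit 18364758544439727120),(nat_lit 18364758544439727120),(nat_lit 18364758544493064720),(nat_lit 18364758544493064720)]) (a (r (nat_lit 0) (nat_lit 12816) (nat_lit 12816) [(nat_lit 18364758544475164770),(nat_lit 18364758544475164770),(nat_lit 18364758544493064720),(nat_lit 18364758544493064705)]) (a (r (nat_lit 2) (nat_lit 12816) (nat_lit 12816) [(nat_lit 18364758544475370000),(nat_lit 18364758544475370000),(nat_lit 18364758544493064720),(nat_lit 18364758544493064720)]) e)))))))) = true := by decide +kernel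
theorem K1183 : checkNode 4 2 6 U [(1,C851),(1,C880),(1,C660),(1,C1178),(1,C1125)] 3000 2 C1183 (k (a (t (nat_lit 5712861536304) e) (a (r (nat_lit 0) (nat_lit 12816) (nat_lit 12816) [(nat_lit 18364758544491876435),(nat_lit 18364758544491876435),(nat_lit 18364758544493064720),(nat_lit 18364758544493064450)]) (a (r (nat_lit 1) (nat_lit 8976) (nat_lit 8976) [(nat_lit 18364758544490827860),(nat_lit 18364758544490827860),(nat_lit 18364758544493064720),(nat_lit 18364758544493064705)]) (a (r (nat_lit 2) (nat_lit 12816) (nat_lit 12816) [(nat_lit 18364758544491947280),(nat_lit 18364758544491947280),(nat_lit 18364758544493064720),(nat_lit 18364758544493064720)]) (a (r (nat_lit 3) (nat_lit 12816) (nat_lit 12816) [(nat_lit 18364758544493064720),(nat_lit 18364758544493064720),(nat_lit 18364758544493064720),(nat_lit 18364758544493064720)]) (a (t (nat_lit 5708566569008) e) (a (t (nat_lit 5588309450800) e) (a (r (nat_lit 0) (nat_lit 12816) (nat_lit 12816) [(nat_lit 18364758544491941970),(nat_lit 18364758544491941970),(nat_lit 18364758544493064720),(nat_lit 18364758544493064705)])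 (a (r (nat_lit 4) (nat_lit 12816) (nat_lit 12816) [(nat_lit 18364758544492081680),(nat_lit 18364758544492081680),(nat_lit 18364758544493064720),(nat_lit 18364758544493064720)]) e)))))))))) = true := by decide +kernel
theorem K1185 : checkNode 4 2 6 U [(2,C854),(2,C662),(2,C1127),(2,C1165),(2,C1183)] 3000 3 C1185 (k (a (r (nat_lit 0) (nat_lit 12816) (nat_lit 12816) [(nat_lit 18364758544492938000),(nat_lit 18364758544492938000),(nat_lit 18364758544493064720),(nat_lit 18364758544493064480)]) (a (r (nat_lit 0) (nat_lit 12816) (nat_lit 12816) [(nat_lit 18364758544493003280),(nat_lit 18364758544493003280),(nat_lit 18364758544493064720),(nat_lit 18364758544493064720)]) (a (r (nat_lit 1) (nat_lit 12816) (nat_lit 12816) [(nat_lit 18364758544492995600),(nat_lit 18364758544492995600),(nat_lit 18364758544493064720),(nat_lit 18364758544493064720)]) (a (r (nat_lit 2) (nat_lit 12816) (nat_lit 12816) [(nat_lit 18364758544493064720),(nat_lit 18364758544493064720),(nat_lit 18364758544493064720),(nat_lit 18364758544493064720)]) (a (r (nat_lit 3) (nat_lit 12816) (nat_lit 12816) [(nat_lit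 18364758544493064720),(nat_lit 18364758544493064720),(nat_lit 18364758544493064720),(nat_lit 18364758544493064720)]) (a (r (nat_lit 3) (nat_lit 12816) (nat_lit 12816) [(nat_lit 18364758544493060880),(nat_lit 18364758544493060880),(nat_lit 18364758544493064720),(nat_lit 18364758544493064480)]) (a (r (nat_lit 4) (nat_lit 12816) (nat_lit 12816) [(nat_lit 18364758544493064720),(nat_lit 18364758544493064720),(nat_lit 18364758544493064720),(nat_lit 18364758544493064720)]) (a (t (nat_lit 4484502855728) e) e))))))))) = true := by decide +kernel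
theorem K1194 : checkNode 4 2 6 U [(1,C865),(1,C1139)] 3000 2 C1194 (k (a (t (nat_lit 17665739534640) e) (a (r (nat_lit 0) (nat_lit 12816) (nat_lit 12816) [(nat_lit 18364758544491958800),(nat_lit 18364758544491958800),(nat_lit 18364758544493064720),(nat_lit 18364758544493064720)]) (a (r (nat_lit 1) (nat_lit 8976) (nat_lit 8976) [(nat_lit 18364758544488604995),(nat_lit 18364758544488604995),(nat_lit 18364758544493064705),(nat_lit 18364758544493064225)]) (a (t (nat_lit 52983255609648) e) (a (t (nat_lit 20977159319856) e) (a (t (nat_lit 52923126067504) e) (a (t (nat_lit 52914554024240) e) (a (r (nat_lit 1) (nat_lit 12816) (nat_lit 12816) [(nat_lit 18364758544491947280),(nat_lit 18364758544491947280),(nat_lit 18364758544493064720),(nat_lit 18364758544493064480)]) e))))))))) = true := by decide +kernel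
theorem K1210 : checkNode 4 2 6 U [(0,C874),(0,C1146)] 3000 1 C1210 (k (a (t (nat_lit 17665789800752) e) (a (t (nat_lit 17665773023536) e) (a (t (nat_lit 17665756246320) e) (a (r (nat_lit 0) (nat_lit 12816) (nat_lit 12816) [(nat_lit 18364758544475185680),(nat_lit 18364758544475185680),(nat_lit 18364758544493064720),(nat_lit 18364758544493064720)]) (a (t (nat_lit 52845564932400) e) (a (t (nat_lit 52983305875760) e) (a (t (nat_lit 52983289098544) e) (a (t (nat_lit 52983272321328) e) (a (t (nat_lit 36430501916976) e) (a (t (nat_lit 52983322652976) e) (a (r (nat_lit 1) (nat_lit 12816) (nat_lit 12816) [(nat_lit 18364758544475170320),(nat_lit 18364758544475170320),(nat_lit 18364758544493064720),(nat_lit 18364758544493064480)]) e)))))))))))) = true := by decide +kernel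
theorem K1216 : checkNode 4 2 6 U [(1,C1139),(1,C880),(1,C1210),(1,C1150)] 3000 2 C1216 (k (a (r (nat_lit 0) (nat_lit 8976) (nat_lit 8976) [(nat_lit 18364758544488604500),(nat_lit 18364758544488604500),(nat_lit 18364758544493064705),(nat_lit 18364758544493064210)]) (a (r (nat_lit 0) (nat_lit 8976) (nat_lit 8976) [(nat_lit 18364758544488604755),(nat_lit 18364758544488604755),(nat_lit 18364758544493064705),(nat_lit 18364758544493064225)]) (a (r (nat_lit 1) (nat_lit 12816) (nat_lit 12816) [(nat_lit 18364758544491958800),(nat_lit 18364758544491958800),(nat_lit 18364758544493064720),(nat_lit 18364758544493064720)]) (a (r (nat_lit 2) (nat_lit 12816) (nat_lit 12816) [(nat_lit 18364758544493064720),(nat_lit 18364758544493064720),(nat_lit 18364758544493064720),(nat_lit 18364758544493064720)]) (a (t (nat_lit 52918864589104) e) (a (t (nat_lit 52923142779184) e) (a (t (nat_lit 3441092141104) e) (a (t (nat_lit 36430501916976) e) (a (r (nat_lit 3) (nat_lit 12816) (nat_lit 12816) [(nat_lit 18364758544491947280),(nat_lit 18364758544491947280),(nat_lit 18364758544493064720),(nat_lit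 18364758544493064480)]) e)))))))))) = true := by decide +kernel
theorem K1227 : checkNode 4 2 6 U [(1,C891),(1,C900)] 3000 2 C1227 (k (a (t (nat_lit 52918864589104) e) (a (t (nat_lit 52923126067504) e) (a (r (nat_lit 0) (nat_lit 12816) (nat_lit 12816) [(nat_lit 18364758544491958800),(nat_lit 18364758544491958800),(nat_lit 18364758544493064720),(nat_lit 18364758544493064720)]) (a (t (nat_lit 36430501916976) e) (a (r (nat_lit 1) (nat_lit 8976) (nat_lit 8976) [(nat_lit 18364758544490827860),(nat_lit 18364758544490827860),(nat_lit 18364758544493064720),(nat_lit 18364758544493064450)]) (a (t (nat_lit 3441092141104) e) (a (t (nat_lit 3441092141104) e) (a (t (nat_lit 3380678308144) e) e))))))))) = true := by decide +kernel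
theorem K1236 : checkNode 4 2 6 U [(1,C1159),(1,C900)] 3000 2 C1236 (k (a (t (nat_lit 52914554024240) e) (a (r (nat_lit 0) (nat_lit 12816) (nat_lit 12816) [(nat_lit 18364758544490975760),(nat_lit 18364758544490975760),(nat_lit 18364758544493064720),(nat_lit 18364758544493064720)]) (a (t (nat_lit 52914554024240) e) (a (r (nat_lit 1) (nat_lit 12816) (nat_lit 12816) [(nat_lit 18364758544491958800),(nat_lit 18364758544491958800),(nat_lit 18364758544493064720),(nat_lit 18364758544493064720)]) (a (t (nat_lit 52914554024240) e) (a (t (nat_lit 35326964937008) e) (a (t (nat_lit 3509543182384) e) (a (t (nat_lit 3509543182384) e) e))))))))) = true := by decide +kernel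
theorem K1238 : checkNode 4 2 6 U [(2,C1194),(2,C902),(2,C1216),(2,C1227),(2,C1236),(2,C1165)] 3000 3 C1238 (k (a (r (nat_lit 0) (nat_lit 12816) (nat_lit 12816) [(nat_lit 18364758544493064720),(nat_lit 18364758544493064720),(nat_lit 18364758544493064720),(nat_lit 18364758544493064720)]) (a (r (nat_lit 1) (nat_lit 12816) (nat_lit 12816) [(nat_lit 18364758544493003280),(nat_lit 18364758544493003280),(nat_lit 18364758544493064720),(nat_lit 18364758544493064720)]) (a (r (nat_lit 2) (nat_lit 12816) (nat_lit 12816) [(nat_lit 18364758544493064720),(nat_lit 18364758544493064720),(nat_lit 18364758544493064720),(nat_lit 18364758544493064720)]) (a (t (nat_lit 3380678308144) e) (a (t (nat_lit 3380678308144) e) (a (r (nat_lit 3) (nat_lit 12816) (nat_lit 12816) [(nat_lit 18364758544493064720),(nat_lit 18364758544493064720),(nat_lit 18364758544493064720),(nat_lit 18364758544493064720)]) (a (r (nat_lit 4) (nat_lit 12816) (nat_lit 12816) [(nat_lit 18364758544493064720),(nat_lit 18364758544493064720),(nat_lit 18364758544493064720),(nat_lit 18364758544493064720)]) (a (r (nat_lit 5)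 (nat_lit 12816) (nat_lit 12816) [(nat_lit 18364758544492995600),(nat_lit 18364758544492995600),(nat_lit 18364758544493064720),(nat_lit 18364758544493064480)]) e))))))))) = true := by decide +kernel
theorem K1247 : checkNode 4 2 6 U [(2,C902),(2,C1227),(2,C672),(2,C1183)] 3000 3 C1247 (k (a (t (nat_lit 4484484903216) e) (a (r (nat_lit 0) (nat_lit 12816) (nat_lit 12816) [(nat_lit 18364758544492990530),(nat_lit 18364758544492990530),(nat_lit 18364758544493064720),(nat_lit 18364758544493064705)]) (a (r (nat_lit 1) (nat_lit 12816) (nat_lit 12816) [(nat_lit 18364758544493003280),(nat_lit 18364758544493003280),(nat_lit 18364758544493064480),(nat_lit 18364758544493064720)]) (a (r (nat_lit 0) (nat_lit 8976) (nat_lit 8976) [(nat_lit 18364758544492924995),(nat_lit 18364758544492924995),(nat_lit 18364758544493064720),(nat_lit 18364758544493064705)]) (a (r (nat_lit 2) (nat_lit 12816) (nat_lit 12816) [(nat_lit 18364758544492995600),(nat_lit 18364758544492995600),(nat_lit 18364758544493064720),(nat_lit 18364758544493064720)]) (a (r (nat_lit 3) (nat_lit 8976) (nat_lit 8976) [(nat_lit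 18364758544492938000),(nat_lit 18364758544492938000),(nat_lit 18364758544493064720),(nat_lit 18364758544493064720)]) (a (r (nat_lit 1) (nat_lit 8976) (nat_lit 8976) [(nat_lit 18364758544492938000),(nat_lit 18364758544492938000),(nat_lit 18364758544493064480),(nat_lit 18364758544493064720)]) (a (r (nat_lit 3) (nat_lit 12816) (nat_lit 12816) [(nat_lit 18364758544493003280),(nat_lit 18364758544493003280),(nat_lit 18364758544493064720),(nat_lit 18364758544493064720)]) e))))))))) = true := by decide +kernel
theorem K1257 : checkNode 4 2 6 U [(1,C1139),(1,C914)] 3000 2 C1257 (k (a (t (nat_lit 52914554024240) e) (a (r (nat_lit 0) (nat_lit 12816) (nat_lit 12816) [(nat_lit 18364758544491958800),(nat_lit 18364758544491958800),(nat_lit 18364758544493064720),(nat_lit 18364758544493064720)]) (a (t (nat_lit 37525669425456) e) (a (t (nat_lit 52914554024240) e) (a (r (nat_lit 1) (nat_lit 12816) (nat_lit 12816) [(nat_lit 18364758544491958800),(nat_lit 18364758544491958800),(nat_lit 18364758544493064720),(nat_lit 18364758544493064720)]) (a (t (nat_lit 52914554024240) e) (a (t (nat_lit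 35326964937008) e) (a (t (nat_lit 22132806590512) e) (a (t (nat_lit 20977177206832) e) e)))))))))) = true := by decide +kernel
theorem K1270 : checkNode 4 2 6 U [(0,C1146),(0,C927)] 3000 1 C1270 (k (a (t (nat_lit 52927422148912) e) (a (t (nat_lit 52923127181616) e) (a (t (nat_lit 52918832214320) e) (a (r (nat_lit 0) (nat_lit 12816) (nat_lit 12816) [(nat_lit 18364758544475185680),(nat_lit 18364758544475185680),(nat_lit 18364758544493064720),(nat_lit 18364758544493064720)]) (a (t (nat_lit 52983256723760) e) (a (r (nat_lit 1) (nat_lit 12816) (nat_lit 12816) [(nat_lit 18364758544475185680),(nat_lit 18364758544475185680),(nat_lit 18364758544493064720),(nat_lit 18364758544493064720)]) (a (t (nat_lit 38698227933232) e) (a (t (nat_lit 37534560231472) e) e))))))))) = true := by decide +kernel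
theorem K1274 : checkNode 4 2 6 U [(1,C1150),(1,C1270),(1,C931)] 3000 2 C1274 (k (a (t (nat_lit 36430452764976) e) (a (t (nat_lit 37525669425456) e) (a (r (nat_lit 0) (nat_lit 12816) (nat_lit 12816) [(nat_lit 18364758544491958800),(nat_lit 18364758544491958800),(nat_lit 18364758544493064720),(nat_lit 18364758544493064720)]) (a (r (nat_lit 1) (nat_lit 12816) (nat_lit 12816) [(nat_lit 18364758544493064720),(nat_lit 18364758544493064720),(nat_lit 18364758544493064720),(nat_lit 18364758544493064720)]) (a (r (nat_lit 2) (nat_lit 12816) (nat_lit 12816) [(nat_lit 18364758544491958800),(nat_lit 18364758544491958800),(nat_lit 18364758544493064720),(nat_lit 18364758544493064720)]) (a (t (nat_lit 3441108918320) e) (a (t (nat_lit 3441108918320) e) e)))))))) = true := by decide +kernel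
theorem K1296 : checkNode 4 2 6 U [(0,C947)] 3000 1 C1296 (k (a (t (nat_lit 57312600535344) e) (a (t (nat_lit 36508080939056) e) (a (t (nat_lit 35326964937008) e) (a (r (nat_lit 0) (nat_lit 12816) (nat_lit 12816) [(nat_lit 18364758544475185680),(nat_lit 18364758544475185680),(nat_lit 18364758544493064720),(nat_lit 18364758544493064720)]) (a (t (nat_lit 35326964937008) e) (a (t (nat_lit 35326964937008) e) (a (t (nat_lit 35326964937008) e) (a (t (nat_lit 35326964937008) e) (a (t (nat_lit 36508080939056) e) (a (t (nat_lit 36508080939056) e) (a (t (nat_lit 36508080939056) e) (a (t (nat_lit 36508080939056) e) e))))))))))))) = true := by decide +kernel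
theorem K1300 : checkNode 4 2 6 U [(1,C951),(1,C1296)] 3000 2 C1300 (k (a (t (nat_lit 35326964937008) e) (a (t (nat_lit 3513838149680) e) (a (t (nat_lit 35326964937008) e) (a (r (nat_lit 0) (nat_lit 12816) (nat_lit 12816) [(nat_lit 18364758544491958800),(nat_lit 18364758544491958800),(nat_lit 18364758544493064720),(nat_lit 18364758544493064720)]) (a (t (nat_lit 35326964937008) e) (a (t (nat_lit 35326964937008) e) (a (r (nat_lit 1) (nat_lit 12816) (nat_lit 12816) [(nat_lit 18364758544493064720),(nat_lit 18364758544493064720),(nat_lit 18364758544493064720),(nat_lit 18364758544493064720)]) (a (t (nat_lit 3513838149680) e) (a (t (nat_lit 3513838149680) e) (a (t (nat_lit 3513838149680) e) e))))))))))) = true := by decide +kernel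
theorem K1303 : checkNode 4 2 6 U [(2,C1257),(2,C1165),(2,C1274),(2,C1236),(2,C954),(2,C1227),(2,C1300)] 3000 3 C1303 (k (a (r (nat_lit 0) (nat_lit 12816) (nat_lit 12816) [(nat_lit 18364758544493064720),(nat_lit 18364758544493064720),(nat_lit 18364758544493064720),(nat_lit 18364758544493064720)]) (a (r (nat_lit 1) (nat_lit 12816) (nat_lit 12816) [(nat_lit 18364758544493003280),(nat_lit 18364758544493003280),(nat_lit 18364758544493064720),(nat_lit 18364758544493064720)]) (a (r (nat_lit 2) (nat_lit 12816) (nat_lit 12816) [(nat_lit 18364758544493064720),(nat_lit 18364758544493064720),(nat_lit 18364758544493064720),(nat_lit 18364758544493064720)]) (a (r (nat_lit 3) (nat_lit 12816) (nat_lit 12816) [(nat_lit 18364758544493003280),(nat_lit 18364758544493003280),(nat_lit 18364758544493064720),(nat_lit 18364758544493064720)]) (a (r (nat_lit 4) (nat_lit 12816) (nat_lit 12816) [(nat_lit 18364758544493003280),(nat_lit 18364758544493003280),(nat_lit 18364758544493064720),(nat_lit 18364758544493064720)]) (a (r (nat_lit 5) (nat_lit 8976) (nat_lit 8976) [(nat_lit 18364758544492934160),(nat_lit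 18364758544492934160),(nat_lit 18364758544493064480),(nat_lit 18364758544493064720)]) (a (r (nat_lit 6) (nat_lit 12816) (nat_lit 12816) [(nat_lit 18364758544493064720),(nat_lit 18364758544493064720),(nat_lit 18364758544493064720),(nat_lit 18364758544493064720)]) (a (t (nat_lit 3380696195120) e) (a (t (nat_lit 3380696195120) e) e)))))))))) = true := by decide +kernel
theorem K1304 : checkNode 4 2 6 U [(2,C561),(2,C854),(2,C902),(2,C954),(3,C674),(3,C1185),(3,C1238),(3,C1247),(3,C1303)] 3000 4 C1304 (k (a (k (a (r (nat_lit 0) (nat_lit 12816) (nat_lit 12816) [(nat_lit 18364758544492856370),(nat_lit 18364758544492856370),(nat_lit 18364758544493064720),(nat_lit 18364758544493064705)]) (a (r (nat_lit 0) (nat_lit 12816) (nat_lit 12816) [(nat_lit 18364758544492995600),(nat_lit 18364758544492995600),(nat_lit 18364758544493064720),(nat_lit 18364758544493064720)]) (a (r (nat_lit 1) (nat_lit 12816) (nat_lit 12816) [(nat_lit 18364758544493064720),(nat_lit 18364758544493064720),(nat_lit 18364758544493064720),(nat_lit 18364758544493064720)]) (a (r (nat_lit 2) (nat_lit 12816) (nat_lit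 12816) [(nat_lit 18364758544493064720),(nat_lit 18364758544493064720),(nat_lit 18364758544493064720),(nat_lit 18364758544493064720)]) (a (r (nat_lit 2) (nat_lit 12816) (nat_lit 12816) [(nat_lit 18364758544493056050),(nat_lit 18364758544493056050),(nat_lit 18364758544493064720),(nat_lit 18364758544493064705)]) (a (r (nat_lit 3) (nat_lit 12816) (nat_lit 12816) [(nat_lit 18364758544493064720),(nat_lit 18364758544493064720),(nat_lit 18364758544493064720),(nat_lit 18364758544493064720)]) e))))))) (a (r (nat_lit 4) (nat_lit 12816) (nat_lit 12816) [(nat_lit 18364758544493060880),(nat_lit 18364758544493060880),(nat_lit 18364758544493064720),(nat_lit 18364758544493064720)]) (a (r (nat_lit 5) (nat_lit 12816) (nat_lit 12816) [(nat_lit 18364758544493064720),(nat_lit 18364758544493064720),(nat_lit 18364758544493064720),(nat_lit 18364758544493064720)]) (a (r (nat_lit 6) (nat_lit 12816) (nat_lit 12816) [(nat_lit 18364758544493064720),(nat_lit 18364758544493064720),(nat_lit 18364758544493064720),(nat_lit 18364758544493064720)]) (a (r (nat_lit 7) (nat_lit 12816) (nat_lit 12816)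 [(nat_lit 18364758544493064720),(nat_lit 18364758544493064720),(nat_lit 18364758544493064720),(nat_lit 18364758544493064720)]) (a (r (nat_lit 8) (nat_lit 12816) (nat_lit 12816) [(nat_lit 18364758544493064720),(nat_lit 18364758544493064720),(nat_lit 18364758544493064720),(nat_lit 18364758544493064720)]) e))))))) = true := by decide +kernel
theorem K1330 : checkNode 4 2 6 U [(1,C1210),(1,C1296),(1,C1270)] 3000 2 C1330 (k (a (t (nat_lit 17665789800752) e) (a (t (nat_lit 17665773023536) e) (a (t (nat_lit 17665756246320) e) (a (r (nat_lit 0) (nat_lit 12816) (nat_lit 12816) [(nat_lit 18364758544491947280),(nat_lit 18364758544491947280),(nat_lit 18364758544493064720),(nat_lit 18364758544493064720)]) (a (t (nat_lit 52845564932400) e) (a (t (nat_lit 36430501916976) e) (a (t (nat_lit 36434780107056) e) (a (t (nat_lit 37534274957616) e) (a (t (nat_lit 36430501916976) e) (a (r (nat_lit 1) (nat_lit 8976) (nat_lit 8976) [(nat_lit 18364758544491947280),(nat_lit 18364758544491947280),(nat_lit 18364758544493064720),(nat_lit 18364758544492994880)]) (a (r (nat_lit 2) (nat_lit 12816)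 (nat_lit 12816) [(nat_lit 18364758544491947280),(nat_lit 18364758544491947280),(nat_lit 18364758544493064720),(nat_lit 18364758544493064480)]) e)))))))))))) = true := by decide +kernel
theorem K1336 : checkNode 4 2 6 U [(2,C1257),(2,C1216),(2,C1330),(2,C1236),(2,C1300),(2,C1274)] 3000 3 C1336 (k (a (r (nat_lit 0) (nat_lit 8976) (nat_lit 8976) [(nat_lit 18364758544492855875),(nat_lit 18364758544492855875),(nat_lit 18364758544493064705),(nat_lit 18364758544493064210)]) (a (r (nat_lit 0) (nat_lit 8976) (nat_lit 8976) [(nat_lit 18364758544492856130),(nat_lit 18364758544492856130),(nat_lit 18364758544493064705),(nat_lit 18364758544493064225)]) (a (r (nat_lit 1) (nat_lit 12816) (nat_lit 12816) [(nat_lit 18364758544492995600),(nat_lit 18364758544492995600),(nat_lit 18364758544493064720),(nat_lit 18364758544493064720)]) (a (r (nat_lit 2) (nat_lit 12816) (nat_lit 12816) [(nat_lit 18364758544493064720),(nat_lit 18364758544493064720),(nat_lit 18364758544493064720),(nat_lit 18364758544493064720)]) (a (r (nat_lit 3) (nat_lit 8976) (nat_lit 8976) [(nat_lit 18364758544492934160),(nat_lit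 18364758544492934160),(nat_lit 18364758544493064720),(nat_lit 18364758544493064480)]) (a (r (nat_lit 3) (nat_lit 8976) (nat_lit 8976) [(nat_lit 18364758544492995600),(nat_lit 18364758544492995600),(nat_lit 18364758544493064720),(nat_lit 18364758544493064720)]) (a (t (nat_lit 2341297263152) e) (a (r (nat_lit 4) (nat_lit 8976) (nat_lit 8976) [(nat_lit 18364758544492995600),(nat_lit 18364758544492995600),(nat_lit 18364758544493064720),(nat_lit 18364758544493060400)]) (a (r (nat_lit 5) (nat_lit 12816) (nat_lit 12816) [(nat_lit 18364758544492995600),(nat_lit 18364758544492995600),(nat_lit 18364758544493064720),(nat_lit 18364758544493064480)]) e)))))))))) = true := by decide +kernel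
theorem K1342 : checkNode 4 2 6 U [(2,C1194),(2,C1257),(3,C1238),(3,C1336),(3,C1303)] 3000 4 C1342 (k (a (k (a (t (nat_lit 17665739534640) e) (a (r (nat_lit 0) (nat_lit 12816) (nat_lit 12816) [(nat_lit 18364758544492995600),(nat_lit 18364758544492995600),(nat_lit 18364758544493064720),(nat_lit 18364758544493064720)]) (a (r (nat_lit 1) (nat_lit 8976) (nat_lit 8976) [(nat_lit 18364758544492856370),(nat_lit 18364758544492856370),(nat_lit 18364758544493064705),(nat_lit 18364758544493064225)]) (a (r (nat_lit 0) (nat_lit 8976) (nat_lit 8976) [(nat_lit 18364758544492995600),(nat_lit 18364758544492995600),(nat_lit 18364758544493064720),(nat_lit 18364758544493064720)]) (a (t (nat_lit 19873352724784) e) (a (r (nat_lit 1) (nat_lit 8976) (nat_lit 8976) [(nat_lit 18364758544492995600),(nat_lit 18364758544492995600),(nat_lit 18364758544493064720),(nat_lit 18364758544493064480)]) (a (r (nat_lit 1) (nat_lit 12816) (nat_lit 12816) [(nat_lit 18364758544492856370),(nat_lit 18364758544492856370),(nat_lit 18364758544493064705),(nat_lit 18364758544493064225)]) (a (r (nat_lit 1) (nat_lit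 12816) (nat_lit 12816) [(nat_lit 18364758544492995600),(nat_lit 18364758544492995600),(nat_lit 18364758544493064720),(nat_lit 18364758544493064480)]) e))))))))) (a (r (nat_lit 2) (nat_lit 12816) (nat_lit 12816) [(nat_lit 18364758544493060880),(nat_lit 18364758544493060880),(nat_lit 18364758544493064720),(nat_lit 18364758544493064720)]) (a (r (nat_lit 3) (nat_lit 12816) (nat_lit 12816) [(nat_lit 18364758544493064720),(nat_lit 18364758544493064720),(nat_lit 18364758544493064720),(nat_lit 18364758544493064720)]) (a (r (nat_lit 2) (nat_lit 8976) (nat_lit 8976) [(nat_lit 18364758544493060880),(nat_lit 18364758544493060880),(nat_lit 18364758544493064720),(nat_lit 18364758544493064720)]) (a (t (nat_lit 2276871713072) e) (a (r (nat_lit 4) (nat_lit 8976) (nat_lit 8976) [(nat_lit 18364758544493060880),(nat_lit 18364758544493060880),(nat_lit 18364758544493064720),(nat_lit 18364758544493064480)]) (a (r (nat_lit 3) (nat_lit 8976) (nat_lit 8976) [(nat_lit 18364758544493064720),(nat_lit 18364758544493064720),(nat_lit 18364758544493064720),(nat_lit 18364758544493064720)]) (a (r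 (nat_lit 4) (nat_lit 12816) (nat_lit 12816) [(nat_lit 18364758544493060880),(nat_lit 18364758544493060880),(nat_lit 18364758544493064720),(nat_lit 18364758544493064480)]) e))))))))) = true := by decide +kernel
theorem K1581 : checkNode 4 2 6 U [] 3000 0 C1581 (t (nat_lit 38702522900528) (a (t (nat_lit 52914856014128) e) (a (t (nat_lit 52914856014128) e) (a (t (nat_lit 52914856014128) e) (a (t (nat_lit 52914856014128) e) e))))) = true := by decide +kernel
theorem K1586 : checkNode 4 2 6 U [(0,C1146),(0,C1118),(0,C1581)] 3000 1 C1586 (k (a (r (nat_lit 0) (nat_lit 8976) (nat_lit 8976) [(nat_lit 18364758544421500005),(nat_lit 18364758544421500005),(nat_lit 18364758544493060355),(nat_lit 18364758544493064210)]) (a (r (nat_lit 0) (nat_lit 8976) (nat_lit 8976) [(nat_lit 18364758544421500260),(nat_lit 18364758544421500260),(nat_lit 18364758544493060355),(nat_lit 18364758544493064225)]) (a (r (nat_lit 1) (nat_lit 12816) (nat_lit 12816) [(nat_lit 18364758544475099235),(nat_lit 18364758544475099235),(nat_lit 18364758544493064720),(nat_lit 18364758544493060355)]) (a (r (nat_lit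 2) (nat_lit 12816) (nat_lit 12816) [(nat_lit 18364758544493064720),(nat_lit 18364758544493064720),(nat_lit 18364758544493064720),(nat_lit 18364758544493064720)]) (a (t (nat_lit 54993318253600) e) (a (t (nat_lit 53893806625824) e) (a (t (nat_lit 4540637388848) e) (a (t (nat_lit 4540637388848) e) e))))))))) = true := by decide +kernel
theorem K1595 : checkNode 4 2 6 U [(1,C1210),(1,C1125),(1,C1586)] 3000 2 C1595 (k (a (r (nat_lit 0) (nat_lit 8976) (nat_lit 8976) [(nat_lit 18364758544489710420),(nat_lit 18364758544489710420),(nat_lit 18364758544493060355),(nat_lit 18364758544493064705)]) (a (r (nat_lit 1) (nat_lit 12816) (nat_lit 12816) [(nat_lit 18364758544491876435),(nat_lit 18364758544491876435),(nat_lit 18364758544493064720),(nat_lit 18364758544493060355)]) (a (r (nat_lit 2) (nat_lit 12816) (nat_lit 12816) [(nat_lit 18364758544493064720),(nat_lit 18364758544493064720),(nat_lit 18364758544493064720),(nat_lit 18364758544493064720)]) (a (t (nat_lit 22080983806752) e) (a (t (nat_lit 54993098978080) e) (a (t (nat_lit 22080983741216) e) (a (t (nat_lit 22080983867440)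 e) (a (t (nat_lit 4617644810288) e) (a (t (nat_lit 53893587350304) e) (a (t (nat_lit 4484502855728) e) (a (t (nat_lit 4484502855728) e) e)))))))))))) = true := by decide +kernel
theorem K1610 : checkNode 4 2 6 U [(1,C1150),(1,C1178),(1,C1586)] 3000 2 C1610 (k (a (r (nat_lit 0) (nat_lit 8976) (nat_lit 8976) [(nat_lit 18364758544488604500),(nat_lit 18364758544488604500),(nat_lit 18364758544493064450),(nat_lit 18364758544493064210)]) (a (r (nat_lit 0) (nat_lit 8976) (nat_lit 8976) [(nat_lit 18364758544488604755),(nat_lit 18364758544488604755),(nat_lit 18364758544493064450),(nat_lit 18364758544493064225)]) (a (r (nat_lit 1) (nat_lit 12816) (nat_lit 12816) [(nat_lit 18364758544491941970),(nat_lit 18364758544491941970),(nat_lit 18364758544493064720),(nat_lit 18364758544493064450)]) (a (r (nat_lit 2) (nat_lit 8976) (nat_lit 8976) [(nat_lit 18364758544488604995),(nat_lit 18364758544488604995),(nat_lit 18364758544493064450),(nat_lit 18364758544493052705)]) (a (r (nat_lit 0) (nat_lit 12816) (nat_lit 12816) [(nat_lit 18364758544491946065),(nat_lit 18364758544491946065),(nat_lit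 18364758544493064720),(nat_lit 18364758544493064705)]) (a (r (nat_lit 0) (nat_lit 12816) (nat_lit 12816) [(nat_lit 18364758544491946320),(nat_lit 18364758544491946320),(nat_lit 18364758544493064720),(nat_lit 18364758544493064720)]) (a (r (nat_lit 2) (nat_lit 12816) (nat_lit 12816) [(nat_lit 18364758544491947280),(nat_lit 18364758544491947280),(nat_lit 18364758544493064720),(nat_lit 18364758544493060880)]) e)))))))) = true := by decide +kernel
theorem K1619 : checkNode 4 2 6 U [(1,C1159)] 3000 2 C1619 (k (a (t (nat_lit 52914554024240) e) (a (t (nat_lit 4609054880288) e) (a (t (nat_lit 52914554024240) e) (a (t (nat_lit 3513840112416) e) (a (t (nat_lit 52914554024240) e) (a (t (nat_lit 35326964937008) e) (a (r (nat_lit 0) (nat_lit 12816) (nat_lit 12816) [(nat_lit 18364758544491946320),(nat_lit 18364758544491946320),(nat_lit 18364758544493064720),(nat_lit 18364758544493064720)]) (a (t (nat_lit 20977177145888) e) e))))))))) = true := by decide +kernel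
theorem K1640 : checkNode 4 2 6 U [] 3000 1 C1640 (k (a (t (nat_lit 57312600535344) e) (a (t (nat_lit 36508080939056) e) (a (t (nat_lit 35326964937008) e) (a (t (nat_lit 36508080939056) e) (a (t (nat_lit 35326964937008) e) (a (t (nat_lit 35326964937008) e) (a (t (nat_lit 35326964937008) e) (a (t (nat_lit 35326964937008) e) (a (t (nat_lit 36508080939056) e) (a (t (nat_lit 54018679452192) e) (a (t (nat_lit 36508080939056) e) (a (t (nat_lit 36508080939056) e) e))))))))))))) = true := by decide +kernel
theorem K1644 : checkNode 4 2 6 U [(1,C1640)] 3000 2 C1644 (k (a (t (nat_lit 35326964937008) e) (a (t (nat_lit 20977177276960) e) (a (t (nat_lit 35326964937008) e) (a (t (nat_lit 4484502860320) e) (a (t (nat_lit 35326964937008) e) (a (t (nat_lit 35326964937008) e) (a (r (nat_lit 0) (nat_lit 12816) (nat_lit 12816) [(nat_lit 18364758544493064720),(nat_lit 18364758544493064720),(nat_lit 18364758544493064720),(nat_lit 18364758544493064720)]) (a (t (nat_lit 53889795691296) e) (a (t (nat_lit 3513838149680) e) (a (t (nat_lit 3513838149680) e) e))))))))))) = true := by decide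 +kernel
theorem K1647 : checkNode 4 2 6 U [(2,C1216),(2,C1183),(2,C1610),(2,C1619),(2,C1165),(2,C1644),(2,C1595)] 3000 3 C1647 (k (a (r (nat_lit 0) (nat_lit 8976) (nat_lit 8976) [(nat_lit 18364758544492855875),(nat_lit 18364758544492855875),(nat_lit 18364758544493064450),(nat_lit 18364758544493064705)]) (a (r (nat_lit 1) (nat_lit 12816) (nat_lit 12816) [(nat_lit 18364758544492990530),(nat_lit 18364758544492990530),(nat_lit 18364758544493064720),(nat_lit 18364758544493064450)]) (a (r (nat_lit 2) (nat_lit 12816) (nat_lit 12816) [(nat_lit 18364758544493064720),(nat_lit 18364758544493064720),(nat_lit 18364758544493064720),(nat_lit 18364758544493064720)]) (a (r (nat_lit 3) (nat_lit 12816) (nat_lit 12816) [(nat_lit 18364758544493064720),(nat_lit 18364758544493064720),(nat_lit 18364758544493064720),(nat_lit 18364758544493064720)]) (a (r (nat_lit 4) (nat_lit 12816) (nat_lit 12816) [(nat_lit 18364758544492994625),(nat_lit 18364758544492994625),(nat_lit 18364758544493064720),(nat_lit 18364758544493064705)]) (a (r (nat_lit 3) (nat_lit 12816) (nat_lit 12816) [(nat_lit 18364758544493064705),(nat_lit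 18364758544493064705),(nat_lit 18364758544493064720),(nat_lit 18364758544493064705)]) (a (r (nat_lit 5) (nat_lit 12816) (nat_lit 12816) [(nat_lit 18364758544493064720),(nat_lit 18364758544493064720),(nat_lit 18364758544493064720),(nat_lit 18364758544493064720)]) (a (r (nat_lit 4) (nat_lit 12816) (nat_lit 12816) [(nat_lit 18364758544492994880),(nat_lit 18364758544492994880),(nat_lit 18364758544493064720),(nat_lit 18364758544493064720)]) (a (r (nat_lit 6) (nat_lit 12816) (nat_lit 12816) [(nat_lit 18364758544492995600),(nat_lit 18364758544492995600),(nat_lit 18364758544493064720),(nat_lit 18364758544493060880)]) e)))))))))) = true := by decide +kernel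
theorem K1669 : checkNode 4 2 6 U [(1,C1270),(1,C1586),(0,C1581)] 3000 2 C1669 (k (a (r (nat_lit 0) (nat_lit 8976) (nat_lit 8976) [(nat_lit 18364758544489710420),(nat_lit 18364758544489710420),(nat_lit 18364758544493060355),(nat_lit 18364758544493064210)]) (a (r (nat_lit 0) (nat_lit 8976) (nat_lit 8976) [(nat_lit 18364758544489710675),(nat_lit 18364758544489710675),(nat_lit 18364758544493060355),(nat_lit 18364758544493064225)]) (a (r (nat_lit 1) (nat_lit 12816) (nat_lit 12816) [(nat_lit 18364758544491958800),(nat_lit 18364758544491958800),(nat_lit 18364758544493064720),(nat_lit 18364758544493064720)]) (a (k (a (t (nat_lit 38621204853040) e) (a (t (nat_lit 37521693225264) e) (a (t (nat_lit 36422181597488) e) (a (r (nat_lit 2) (nat_lit 12816) (nat_lit 12816) [(nat_lit 18364758544475185680),(nat_lit 18364758544475185680),(nat_lit 18364758544493064720),(nat_lit 18364758544493064720)]) (a (t (nat_lit 52914856014128) e) (a (t (nat_lit 37534561411360) e) (a (t (nat_lit 37534544634144) e) (a (t (nat_lit 37534577008688) e) (a (t (nat_lit 36430503157808) e) e)))))))))) (a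 (t (nat_lit 54989023286048) e) (a (t (nat_lit 53889511658272) e) (a (t (nat_lit 3441125695536) e) (a (t (nat_lit 3441125695536) e) e))))))))) = true := by decide +kernel
theorem K1700 : checkNode 4 2 6 U [(1,C1296),(1,C1640)] 3000 2 C1700 (k (a (r (nat_lit 0) (nat_lit 12816) (nat_lit 12816) [(nat_lit 18364758544489710420),(nat_lit 18364758544489710420),(nat_lit 18364758544493064705),(nat_lit 18364758544492924980)]) (a (t (nat_lit 3518133116976) e) (a (r (nat_lit 1) (nat_lit 12816) (nat_lit 12816) [(nat_lit 18364758544491958800),(nat_lit 18364758544491958800),(nat_lit 18364758544493064720),(nat_lit 18364758544493064720)]) (a (t (nat_lit 54989324096288) e) (a (r (nat_lit 0) (nat_lit 12816) (nat_lit 12816) [(nat_lit 18364758544489710675),(nat_lit 18364758544489710675),(nat_lit 18364758544493064705),(nat_lit 18364758544492924995)]) (a (r (nat_lit 1) (nat_lit 12816) (nat_lit 12816) [(nat_lit 18364758544491958560),(nat_lit 18364758544491958560),(nat_lit 18364758544493064720),(nat_lit 18364758544493064480)]) (a (r (nat_lit 1) (nat_lit 12816) (nat_lit 12816) [(nat_lit 18364758544491958305),(nat_lit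 18364758544491958305),(nat_lit 18364758544493064720),(nat_lit 18364758544493064225)]) (a (k (a (t (nat_lit 58412112163120) e) (a (t (nat_lit 36512392749104) e) (a (t (nat_lit 35326964937008) e) (a (t (nat_lit 55118207922976) e) (a (t (nat_lit 57312600535344) e) (a (t (nat_lit 35326964937008) e) (a (t (nat_lit 35326964937008) e) (a (t (nat_lit 35326964937008) e) (a (t (nat_lit 35326964937008) e) (a (t (nat_lit 36512392749104) e) (a (t (nat_lit 36512392749104) e) (a (t (nat_lit 54018696295200) e) (a (t (nat_lit 36512392749104) e) (a (t (nat_lit 36512392749104) e) e))))))))))))))) (a (t (nat_lit 3518133116976) e) (a (t (nat_lit 53889812468512) e) (a (t (nat_lit 3518133116976) e) (a (t (nat_lit 3518133116976) e) e))))))))))))) = true := by decide +kernel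
theorem K1704 : checkNode 4 2 6 U [(2,C1330),(2,C1595),(2,C1669),(2,C1644),(2,C1700)] 3000 3 C1704 (k (a (r (nat_lit 0) (nat_lit 8976) (nat_lit 8976) [(nat_lit 18364758544492924995),(nat_lit 18364758544492924995),(nat_lit 18364758544493060355),(nat_lit 18364758544493064705)]) (a (r (nat_lit 1) (nat_lit 12816) (nat_lit 12816) [(nat_lit 18364758544493003280),(nat_lit 18364758544493003280),(nat_lit 18364758544493064720),(nat_lit 18364758544493064720)]) (a (r (nat_lit 2) (nat_lit 12816) (nat_lit 12816) [(nat_lit 18364758544493064720),(nat_lit 18364758544493064720),(nat_lit 18364758544493064720),(nat_lit 18364758544493064720)]) (a (r (nat_lit 3) (nat_lit 12816) (nat_lit 12816) [(nat_lit 18364758544493003280),(nat_lit 18364758544493003280),(nat_lit 18364758544493064720),(nat_lit 18364758544493064720)]) (a (t (nat_lit 54988787233568) e) (a (r (nat_lit 3) (nat_lit 12816) (nat_lit 12816) [(nat_lit 18364758544493003040),(nat_lit 18364758544493003040),(nat_lit 18364758544493064720),(nat_lit 18364758544493064480)]) (a (r (nat_lit 3) (nat_lit 12816) (nat_lit 12816) [(nat_lit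 18364758544493002785),(nat_lit 18364758544493002785),(nat_lit 18364758544493064720),(nat_lit 18364758544493064225)]) (a (r (nat_lit 4) (nat_lit 12816) (nat_lit 12816) [(nat_lit 18364758544493064720),(nat_lit 18364758544493064720),(nat_lit 18364758544493064720),(nat_lit 18364758544493064720)]) (a (t (nat_lit 53889275605792) e) (a (t (nat_lit 3380696260656) e) (a (t (nat_lit 3380696260656) e) e)))))))))))) = true := by decide +kernel
theorem K1727 : checkNode 4 2 6 U [(2,C1619),(2,C1236),(2,C1227),(2,C1644)] 3000 3 C1727 (k (a (r (nat_lit 0) (nat_lit 8976) (nat_lit 8976) [(nat_lit 18364758544492986690),(nat_lit 18364758544492986690),(nat_lit 18364758544493064705),(nat_lit 18364758544493064225)]) (a (r (nat_lit 1) (nat_lit 8976) (nat_lit 8976) [(nat_lit 18364758544492986690),(nat_lit 18364758544492986690),(nat_lit 18364758544493064705),(nat_lit 18364758544493064705)]) (a (r (nat_lit 2) (nat_lit 12816) (nat_lit 12816) [(nat_lit 18364758544492933185),(nat_lit 18364758544492933185),(nat_lit 18364758544493064480),(nat_lit 18364758544493064705)]) (a (r (nat_lit 3) (nat_lit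 8976) (nat_lit 8976) [(nat_lit 18364758544492986690),(nat_lit 18364758544492986690),(nat_lit 18364758544493064705),(nat_lit 18364758544493060145)]) (a (r (nat_lit 1) (nat_lit 8976) (nat_lit 8976) [(nat_lit 18364758544492924995),(nat_lit 18364758544492924995),(nat_lit 18364758544493064720),(nat_lit 18364758544493064450)]) (a (r (nat_lit 0) (nat_lit 8976) (nat_lit 8976) [(nat_lit 18364758544492924995),(nat_lit 18364758544492924995),(nat_lit 18364758544493064720),(nat_lit 18364758544493064210)]) (a (r (nat_lit 2) (nat_lit 12816) (nat_lit 12816) [(nat_lit 18364758544492994880),(nat_lit 18364758544492994880),(nat_lit 18364758544493064720),(nat_lit 18364758544493064720)]) (a (r (nat_lit 3) (nat_lit 8976) (nat_lit 8976) [(nat_lit 18364758544492924995),(nat_lit 18364758544492924995),(nat_lit 18364758544493064720),(nat_lit 18364758544493056050)]) e))))))))) = true := by decide +kernel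
theorem K1730 : checkNode 4 2 6 U [(3,C1238),(3,C1247),(3,C1647),(2,C1619),(3,C1727)] 3000 4 C1730 (k (a (r (nat_lit 0) (nat_lit 8976) (nat_lit 8976) [(nat_lit 18364758544493052210),(nat_lit 18364758544493052210),(nat_lit 18364758544493064705),(nat_lit 18364758544493064705)]) (a (r (nat_lit 1) (nat_lit 12816) (nat_lit 12816) [(nat_lit 18364758544493060145),(nat_lit 18364758544493060145),(nat_lit 18364758544493064720),(nat_lit 18364758544493064705)]) (a (r (nat_lit 2) (nat_lit 8976) (nat_lit 8976) [(nat_lit 18364758544493052210),(nat_lit 18364758544493052210),(nat_lit 18364758544493064705),(nat_lit 18364758544493064225)]) (a (k (a (t (nat_lit 69258522928) e) (a (t (nat_lit 3380678308144) e) (a (r (nat_lit 3) (nat_lit 8976) (nat_lit 8976) [(nat_lit 18364758544492986660),(nat_lit 18364758544492986660),(nat_lit 18364758544493064705),(nat_lit 18364758544493064210)]) (a (t (nat_lit 1173065118000) e) (a (t (nat_lit 2276871713072) e) (a (r (nat_lit 3) (nat_lit 8976) (nat_lit 8976) [(nat_lit 18364758544492924980),(nat_lit 18364758544492924980),(nat_lit 18364758544493064720),(nat_lit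 18364758544493064210)]) (a (r (nat_lit 3) (nat_lit 12816) (nat_lit 12816) [(nat_lit 18364758544492856100),(nat_lit 18364758544492856100),(nat_lit 18364758544493064705),(nat_lit 18364758544493064210)]) (a (r (nat_lit 3) (nat_lit 12816) (nat_lit 12816) [(nat_lit 18364758544492994820),(nat_lit 18364758544492994820),(nat_lit 18364758544493064720),(nat_lit 18364758544493064450)]) e))))))))) (a (r (nat_lit 0) (nat_lit 12816) (nat_lit 12816) [(nat_lit 18364758544493060400),(nat_lit 18364758544493060400),(nat_lit 18364758544493064720),(nat_lit 18364758544493064720)]) (a (r (nat_lit 4) (nat_lit 12816) (nat_lit 12816) [(nat_lit 18364758544493064720),(nat_lit 18364758544493064720),(nat_lit 18364758544493064720),(nat_lit 18364758544493064720)]) (a (r (nat_lit 4) (nat_lit 8976) (nat_lit 8976) [(nat_lit 18364758544493052705),(nat_lit 18364758544493052705),(nat_lit 18364758544493064225),(nat_lit 18364758544493064720)]) (a (r (nat_lit 2) (nat_lit 12816) (nat_lit 12816) [(nat_lit 18364758544493060400),(nat_lit 18364758544493060400),(nat_lit 18364758544493064720),(nat_lit 18364758544493064480)])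 e))))))))) = true := by decide +kernel
theorem K1758 : checkNode 4 2 6 U [(3,C1336),(3,C1647),(2,C1274),(2,C1610),(2,C1669),(3,C1727),(3,C1303),(2,C1300),(2,C1644),(2,C1700),(3,C1704)] 3000 4 C1758 (k (a (r (nat_lit 0) (nat_lit 8976) (nat_lit 8976) [(nat_lit 18364758544493056050),(nat_lit 18364758544493056050),(nat_lit 18364758544493064450),(nat_lit 18364758544493064705)]) (a (r (nat_lit 1) (nat_lit 12816) (nat_lit 12816) [(nat_lit 18364758544493060880),(nat_lit 18364758544493060880),(nat_lit 18364758544493064720),(nat_lit 18364758544493064720)]) (a (k (a (r (nat_lit 2) (nat_lit 8976) (nat_lit 8976) [(nat_lit 18364758544492855875),(nat_lit 18364758544492855875),(nat_lit 18364758544493064450),(nat_lit 18364758544493064210)]) (a (r (nat_lit 2) (nat_lit 8976) (nat_lit 8976) [(nat_lit 18364758544492856130),(nat_lit 18364758544492856130),(nat_lit 18364758544493064450),(nat_lit 18364758544493064225)]) (a (r (nat_lit 3) (nat_lit 12816) (nat_lit 12816) [(nat_lit 18364758544492995600),(nat_lit 18364758544492995600),(nat_lit 18364758544493064720),(nat_lit 18364758544493064720)])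 (a (r (nat_lit 4) (nat_lit 8976) (nat_lit 8976) [(nat_lit 18364758544492856370),(nat_lit 18364758544492856370),(nat_lit 18364758544493064450),(nat_lit 18364758544493052705)]) (a (r (nat_lit 2) (nat_lit 12816) (nat_lit 12816) [(nat_lit 18364758544492994625),(nat_lit 18364758544492994625),(nat_lit 18364758544493064720),(nat_lit 18364758544493064705)]) (a (r (nat_lit 2) (nat_lit 12816) (nat_lit 12816) [(nat_lit 18364758544492994880),(nat_lit 18364758544492994880),(nat_lit 18364758544493064720),(nat_lit 18364758544493064720)]) (a (r (nat_lit 4) (nat_lit 12816) (nat_lit 12816) [(nat_lit 18364758544492995600),(nat_lit 18364758544492995600),(nat_lit 18364758544493064720),(nat_lit 18364758544493060880)]) e)))))))) (a (r (nat_lit 5) (nat_lit 8976) (nat_lit 8976) [(nat_lit 18364758544493052465),(nat_lit 18364758544493052465),(nat_lit 18364758544493064225),(nat_lit 18364758544493064720)]) (a (r (nat_lit 6) (nat_lit 12816) (nat_lit 12816) [(nat_lit 18364758544493060145),(nat_lit 18364758544493060145),(nat_lit 18364758544493064720),(nat_lit 18364758544493064705)]) (a (r (nat_lit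 5) (nat_lit 8976) (nat_lit 8976) [(nat_lit 18364758544493056560),(nat_lit 18364758544493056560),(nat_lit 18364758544493064480),(nat_lit 18364758544493064720)]) (a (k (a (r (nat_lit 7) (nat_lit 12816) (nat_lit 12816) [(nat_lit 18364758544492855875),(nat_lit 18364758544492855875),(nat_lit 18364758544493064705),(nat_lit 18364758544493056035)]) (a (r (nat_lit 8) (nat_lit 12816) (nat_lit 12816) [(nat_lit 18364758544492934160),(nat_lit 18364758544492934160),(nat_lit 18364758544493064720),(nat_lit 18364758544493060880)]) (a (r (nat_lit 8) (nat_lit 12816) (nat_lit 12816) [(nat_lit 18364758544492794930),(nat_lit 18364758544492794930),(nat_lit 18364758544493064705),(nat_lit 18364758544493052210)]) (a (r (nat_lit 7) (nat_lit 12816) (nat_lit 12816) [(nat_lit 18364758544492994625),(nat_lit 18364758544492994625),(nat_lit 18364758544493064720),(nat_lit 18364758544493064705)]) (a (r (nat_lit 7) (nat_lit 12816) (nat_lit 12816) [(nat_lit 18364758544492856130),(nat_lit 18364758544492856130),(nat_lit 18364758544493064705),(nat_lit 18364758544493056050)]) (a (r (nat_lit 8) (nat_lit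 12816) (nat_lit 12816) [(nat_lit 18364758544492856370),(nat_lit 18364758544492856370),(nat_lit 18364758544493064705),(nat_lit 18364758544493056050)]) (a (r (nat_lit 9) (nat_lit 12816) (nat_lit 12816) [(nat_lit 18364758544492856370),(nat_lit 18364758544492856370),(nat_lit 18364758544493064705),(nat_lit 18364758544492856370)]) (a (r (nat_lit 8) (nat_lit 12816) (nat_lit 12816) [(nat_lit 18364758544492995600),(nat_lit 18364758544492995600),(nat_lit 18364758544493064720),(nat_lit 18364758544493064720)]) (a (r (nat_lit 7) (nat_lit 12816) (nat_lit 12816) [(nat_lit 18364758544492994880),(nat_lit 18364758544492994880),(nat_lit 18364758544493064720),(nat_lit 18364758544493064720)]) (a (r (nat_lit 9) (nat_lit 12816) (nat_lit 12816) [(nat_lit 18364758544492995600),(nat_lit 18364758544492995600),(nat_lit 18364758544493064720),(nat_lit 18364758544492995600)]) e))))))))))) (a (r (nat_lit 6) (nat_lit 12816) (nat_lit 12816) [(nat_lit 18364758544493060400),(nat_lit 18364758544493060400),(nat_lit 18364758544493064720),(nat_lit 18364758544493064720)]) (a (r (nat_lit 10) (nat_lit 12816)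 (nat_lit 12816) [(nat_lit 18364758544493060880),(nat_lit 18364758544493060880),(nat_lit 18364758544493064720),(nat_lit 18364758544493060880)]) e)))))))))) = true := by decide +kernel
theorem K1759 : checkNode 4 2 6 U [(4,C1304),(3,C1185),(2,C1127),(1,C1104),(0,C1097),(2,C1595),(3,C1647),(3,C1704),(4,C1730),(4,C1758)] 3000 5 C1759 (k (a (r (nat_lit 0) (nat_lit 12816) (nat_lit 12816) [(nat_lit 18364758544493064225),(nat_lit 18364758544493064225),(nat_lit 18364758544493064720),(nat_lit 18364758544493064705)]) (a (r (nat_lit 0) (nat_lit 12816) (nat_lit 12816) [(nat_lit 18364758544493064480),(nat_lit 18364758544493064480),(nat_lit 18364758544493064720),(nat_lit 18364758544493064720)]) (a (k (a (r (nat_lit 1) (nat_lit 12816) (nat_lit 12816) [(nat_lit 18364758544493056050),(nat_lit 18364758544493056050),(nat_lit 18364758544493064720),(nat_lit 18364758544493064450)]) (a (r (nat_lit 1) (nat_lit 12816) (nat_lit 12816) [(nat_lit 18364758544493060145),(nat_lit 18364758544493060145),(nat_lit 18364758544493064720),(nat_lit 18364758544493064705)]) (a (r (nat_lit 1) (nat_lit 12816)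 (nat_lit 12816) [(nat_lit 18364758544493060400),(nat_lit 18364758544493060400),(nat_lit 18364758544493064720),(nat_lit 18364758544493064720)]) (a (k (a (r (nat_lit 2) (nat_lit 12816) (nat_lit 12816) [(nat_lit 18364758544492924995),(nat_lit 18364758544492924995),(nat_lit 18364758544493064720),(nat_lit 18364758544493060355)]) (a (r (nat_lit 2) (nat_lit 12816) (nat_lit 12816) [(nat_lit 18364758544492990530),(nat_lit 18364758544492990530),(nat_lit 18364758544493064720),(nat_lit 18364758544493064450)]) (a (r (nat_lit 2) (nat_lit 12816) (nat_lit 12816) [(nat_lit 18364758544492994625),(nat_lit 18364758544492994625),(nat_lit 18364758544493064720),(nat_lit 18364758544493064705)]) (a (r (nat_lit 2) (nat_lit 12816) (nat_lit 12816) [(nat_lit 18364758544492994880),(nat_lit 18364758544492994880),(nat_lit 18364758544493064720),(nat_lit 18364758544493064720)]) (a (k (a (r (nat_lit 3) (nat_lit 12816) (nat_lit 12816) [(nat_lit 18364758544490827860),(nat_lit 18364758544490827860),(nat_lit 18364758544493064720),(nat_lit 18364758544492994820)]) (a (r (nat_lit 3) (nat_lit 12816) (nat_lit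 12816) [(nat_lit 18364758544491876435),(nat_lit 18364758544491876435),(nat_lit 18364758544493064720),(nat_lit 18364758544493060355)]) (a (r (nat_lit 3) (nat_lit 12816) (nat_lit 12816) [(nat_lit 18364758544491941970),(nat_lit 18364758544491941970),(nat_lit 18364758544493064720),(nat_lit 18364758544493064450)]) (a (r (nat_lit 3) (nat_lit 12816) (nat_lit 12816) [(nat_lit 18364758544491946065),(nat_lit 18364758544491946065),(nat_lit 18364758544493064720),(nat_lit 18364758544493064705)]) (a (r (nat_lit 3) (nat_lit 12816) (nat_lit 12816) [(nat_lit 18364758544491946320),(nat_lit 18364758544491946320),(nat_lit 18364758544493064720),(nat_lit 18364758544493064720)]) (a (k (a (r (nat_lit 4) (nat_lit 12816) (nat_lit 12816) [(nat_lit 18364758544457273445),(nat_lit 18364758544457273445),(nat_lit 18364758544493064720),(nat_lit 18364758544491946245)]) (a (r (nat_lit 4) (nat_lit 12816) (nat_lit 12816) [(nat_lit 18364758544474050660),(nat_lit 18364758544474050660),(nat_lit 18364758544493064720),(nat_lit 18364758544492994820)]) (a (r (nat_lit 4) (nat_lit 12816) (nat_lit 12816) [(nat_lit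 18364758544475099235),(nat_lit 18364758544475099235),(nat_lit 18364758544493064720),(nat_lit 18364758544493060355)]) (a (r (nat_lit 4) (nat_lit 12816) (nat_lit 12816) [(nat_lit 18364758544475164770),(nat_lit 18364758544475164770),(nat_lit 18364758544493064720),(nat_lit 18364758544493064450)]) (a (r (nat_lit 4) (nat_lit 12816) (nat_lit 12816) [(nat_lit 18364758544475168865),(nat_lit 18364758544475168865),(nat_lit 18364758544493064720),(nat_lit 18364758544493064705)]) (a (r (nat_lit 4) (nat_lit 12816) (nat_lit 12816) [(nat_lit 18364758544475169120),(nat_lit 18364758544475169120),(nat_lit 18364758544493064720),(nat_lit 18364758544493064720)]) (a (t (nat_lit 4419624108288) (a (t (nat_lit 3393581359152) e) (a (t (nat_lit 3393581293616) e) (a (t (nat_lit 3393581228080) e) (a (t (nat_lit 3393581162544) e) (a (t (nat_lit 3393581097008) e) (a (t (nat_lit 3393579921712) e) (a (t (nat_lit 3393579921712) e) (a (t (nat_lit 3393581424688) e) (a (t (nat_lit 3389286391856) e) (a (t (nat_lit 3389286326320) e) (a (t (nat_lit 3389286260784) e) (a (t (nat_lit 3389286195248) e) (a (t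 (nat_lit 3389286129712) e) (a (t (nat_lit 3389284954416) e) (a (t (nat_lit 3389284954416) e) (a (t (nat_lit 3389286457392) e) (a (t (nat_lit 3384991424560) e) (a (t (nat_lit 3384991359024) e) (a (t (nat_lit 3384991293488) e) (a (t (nat_lit 3384991227952) e) (a (t (nat_lit 3384991162416) e) (a (t (nat_lit 3384989987120) e) (a (t (nat_lit 3384989987120) e) (a (t (nat_lit 3384991490096) e) (a (t (nat_lit 3380696457264) e) (a (t (nat_lit 3380696391728) e) (a (t (nat_lit 3380696326192) e) (a (t (nat_lit 3380696260656) e) (a (t (nat_lit 3380696195120) e) (a (t (nat_lit 3380695019824) e) (a (t (nat_lit 3380695019824) e) (a (t (nat_lit 3380696522800) e) (a (t (nat_lit 3376401489968) e) (a (t (nat_lit 3376401424432) e) (a (t (nat_lit 3376401358896) e) (a (t (nat_lit 3376401293360) e) (a (t (nat_lit 3376401227824) e) (a (t (nat_lit 3376400052528) e) (a (t (nat_lit 3376400052528) e) (a (t (nat_lit 3376401555504) e) (a (t (nat_lit 3372106522672) e) (a (t (nat_lit 3372106457136) e) (a (t (nat_lit 3372106391600) e) (a (t (nat_lit 3372106326064) e) (a (t (nat_lit 3372106260528)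 e) (a (t (nat_lit 3372105085232) e) (a (t (nat_lit 3372105085232) e) (a (t (nat_lit 3372106588208) e) (a (t (nat_lit 3367811555376) e) (a (t (nat_lit 3367811489840) e) (a (t (nat_lit 3367811424304) e) (a (t (nat_lit 3367811358768) e) (a (t (nat_lit 3367811293232) e) (a (t (nat_lit 3367810117936) e) (a (t (nat_lit 3367810117936) e) (a (t (nat_lit 3367811620912) e) (a (t (nat_lit 25302209536048) e) (a (t (nat_lit 25302209470512) e) (a (t (nat_lit 25302209404976) e) (a (t (nat_lit 25302209339440) e) (a (t (nat_lit 25302209273904) e) (a (t (nat_lit 25302208098608) e) (a (t (nat_lit 25302208098608) e) (a (t (nat_lit 25302209601584) e) (a (t (nat_lit 2294069731376) e) (a (t (nat_lit 2294069665840) e) (a (t (nat_lit 2294069600304) e) (a (t (nat_lit 2294069534768) e) (a (t (nat_lit 2294069469232) e) (a (t (nat_lit 2294068293936) e) (a (t (nat_lit 2294068293936) e) (a (t (nat_lit 2294069796912) e) (a (t (nat_lit 2289774764080) e) (a (t (nat_lit 2289774698544) e) (a (t (nat_lit 2289774633008) e) (a (t (nat_lit 2289774567472) e) (a (t (nat_lit 2289774501936) e) (a (t (nat_lit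 2289773326640) e) (a (t (nat_lit 2289773326640) e) (a (t (nat_lit 2289774829616) e) (a (t (nat_lit 2285479796784) e) (a (t (nat_lit 2285479731248) e) (a (t (nat_lit 2285479665712) e) (a (t (nat_lit 2285479600176) e) (a (t (nat_lit 2285479534640) e) (a (t (nat_lit 2285478359344) e) (a (t (nat_lit 2285478359344) e) (a (t (nat_lit 2285479862320) e) (a (t (nat_lit 2281184829488) e) (a (t (nat_lit 2281184763952) e) (a (t (nat_lit 2281184698416) e) (a (t (nat_lit 2281184632880) e) (a (t (nat_lit 2281184567344) e) (a (t (nat_lit 2281183392048) e) (a (t (nat_lit 2281183392048) e) (a (t (nat_lit 2281184895024) e) (a (t (nat_lit 2276889862192) e) (a (t (nat_lit 2276889796656) e) (a (t (nat_lit 2276889731120) e) (a (t (nat_lit 2276889665584) e) (a (t (nat_lit 2276889600048) e) (a (t (nat_lit 2276888424752) e) (a (t (nat_lit 2276888424752) e) (a (t (nat_lit 2276889927728) e) (a (t (nat_lit 2272594894896) e) (a (t (nat_lit 2272594829360) e) (a (t (nat_lit 2272594763824) e) (a (t (nat_lit 2272594698288) e) (a (t (nat_lit 2272594632752) e) (a (t (nat_lit 2272593457456) e) (a (t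 (nat_lit 2272593457456) e) (a (t (nat_lit 2272594960432) e) (a (t (nat_lit 2268299927600) e) (a (t (nat_lit 2268299862064) e) (a (t (nat_lit 2268299796528) e) (a (t (nat_lit 2268299730992) e) (a (t (nat_lit 2268299665456) e) (a (t (nat_lit 2268298490160) e) (a (t (nat_lit 2268298490160) e) (a (t (nat_lit 2268299993136) e) (a (t (nat_lit 25297914568752) e) (a (t (nat_lit 25297914503216) e) (a (t (nat_lit 25297914437680) e) (a (t (nat_lit 25297914372144) e) (a (t (nat_lit 25297914306608) e) (a (t (nat_lit 25297913131312) e) (a (t (nat_lit 25297913131312) e) (a (t (nat_lit 25297914634288) e) (a (t (nat_lit 7791627870256) e) (a (t (nat_lit 7791627804720) e) (a (t (nat_lit 7791627739184) e) (a (t (nat_lit 7791627673648) e) (a (t (nat_lit 7791627608112) e) (a (t (nat_lit 7791626432816) e) (a (t (nat_lit 7791626432816) e) (a (t (nat_lit 7791627935792) e) (a (t (nat_lit 7787332902960) e) (a (t (nat_lit 7787332837424) e) (a (t (nat_lit 7787332771888) e) (a (t (nat_lit 7787332706352) e) (a (t (nat_lit 7787332640816) e) (a (t (nat_lit 7787331465520) e) (a (t (nat_lit 7787331465520)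 e) (a (t (nat_lit 7787332968496) e) (a (t (nat_lit 7783037935664) e) (a (t (nat_lit 7783037870128) e) (a (t (nat_lit 7783037804592) e) (a (t (nat_lit 7783037739056) e) (a (t (nat_lit 7783037673520) e) (a (t (nat_lit 7783036498224) e) (a (t (nat_lit 7783036498224) e) (a (t (nat_lit 7783038001200) e) (a (t (nat_lit 7778742968368) e) (a (t (nat_lit 7778742902832) e) (a (t (nat_lit 7778742837296) e) (a (t (nat_lit 7778742771760) e) (a (t (nat_lit 7778742706224) e) (a (t (nat_lit 7778741530928) e) (a (t (nat_lit 7778741530928) e) (a (t (nat_lit 7778743033904) e) (a (t (nat_lit 7774448001072) e) (a (t (nat_lit 7774447935536) e) (a (t (nat_lit 7774447870000) e) (a (t (nat_lit 7774447804464) e) (a (t (nat_lit 7774447738928) e) (a (t (nat_lit 7774446563632) e) (a (t (nat_lit 7774446563632) e) (a (t (nat_lit 7774448066608) e) (a (t (nat_lit 7770153033776) e) (a (t (nat_lit 7770152968240) e) (a (t (nat_lit 7770152902704) e) (a (t (nat_lit 7770152837168) e) (a (t (nat_lit 7770152771632) e) (a (t (nat_lit 7770151596336) e) (a (t (nat_lit 7770151596336) e) (a (t (nat_lit 7770153099312)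 e) (a (t (nat_lit 7765858066480) e) (a (t (nat_lit 7765858000944) e) (a (t (nat_lit 7765857935408) e) (a (t (nat_lit 7765857869872) e) (a (t (nat_lit 7765857804336) e) (a (t (nat_lit 7765856629040) e) (a (t (nat_lit 7765856629040) e) (a (t (nat_lit 7765858132016) e) (a (t (nat_lit 7795922837552) e) (a (t (nat_lit 7795922772016) e) (a (t (nat_lit 7795922706480) e) (a (t (nat_lit 7795922640944) e) (a (t (nat_lit 7795922575408) e) (a (t (nat_lit 7795921400112) e) (a (t (nat_lit 7795921400112) e) (a (t (nat_lit 7795922903088) e) e))))))))))))))))))))))))))))))))))))))))))))))))))))))))))))))))))))))))))))))))))))))))))))))))))))))))))))))))))))))))))))))))))))))))))))))))))))))))))))))))))))))))))))))))))))))))))))))))) (a (t (nat_lit 6692116176944) e) (a (t (nat_lit 6692116111408) e) (a (t (nat_lit 6692116045872) e) (a (t (nat_lit 6692115980336) e) (a (t (nat_lit 6692114805040) e) (a (t (nat_lit 6692114805040) e) (a (t (nat_lit 6692116242480) e) e))))))))))))))) (a (t (nat_lit 5588309516336) e) (a (t (nat_lit 5588309450800) e) (a (t (nat_lit 5588309385264) e) (a (t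 (nat_lit 5588308209968) e) (a (t (nat_lit 5588308209968) e) (a (t (nat_lit 5588309581872) e) e))))))))))))) (a (r (nat_lit 5) (nat_lit 12816) (nat_lit 12816) [(nat_lit 18364758544493064720),(nat_lit 18364758544493064720),(nat_lit 18364758544493064720),(nat_lit 18364758544493064720)]) (a (r (nat_lit 5) (nat_lit 12816) (nat_lit 12816) [(nat_lit 18364758544493060880),(nat_lit 18364758544493060880),(nat_lit 18364758544493064720),(nat_lit 18364758544493060880)]) (a (r (nat_lit 5) (nat_lit 12816) (nat_lit 12816) [(nat_lit 18364758544493056800),(nat_lit 18364758544493056800),(nat_lit 18364758544493064720),(nat_lit 18364758544493056800)]) (a (r (nat_lit 5) (nat_lit 12816) (nat_lit 12816) [(nat_lit 18364758544493052705),(nat_lit 18364758544493052705),(nat_lit 18364758544493064720),(nat_lit 18364758544493052705)]) (a (t (nat_lit 4484502921264) e) e))))))))))) (a (r (nat_lit 6) (nat_lit 12816) (nat_lit 12816) [(nat_lit 18364758544493064720),(nat_lit 18364758544493064720),(nat_lit 18364758544493064720),(nat_lit 18364758544493064720)]) (a (r (nat_lit 6) (nat_lit 12816) (nat_lit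 12816) [(nat_lit 18364758544493064480),(nat_lit 18364758544493064480),(nat_lit 18364758544493064720),(nat_lit 18364758544493064480)]) (a (r (nat_lit 6) (nat_lit 12816) (nat_lit 12816) [(nat_lit 18364758544493064225),(nat_lit 18364758544493064225),(nat_lit 18364758544493064720),(nat_lit 18364758544493064225)]) (a (r (nat_lit 7) (nat_lit 12816) (nat_lit 12816) [(nat_lit 18364758544493064720),(nat_lit 18364758544493064720),(nat_lit 18364758544493064720),(nat_lit 18364758544493064720)]) e))))))))) (a (r (nat_lit 8) (nat_lit 12816) (nat_lit 12816) [(nat_lit 18364758544493064720),(nat_lit 18364758544493064720),(nat_lit 18364758544493064720),(nat_lit 18364758544493064720)]) (a (r (nat_lit 8) (nat_lit 12816) (nat_lit 12816) [(nat_lit 18364758544493064705),(nat_lit 18364758544493064705),(nat_lit 18364758544493064720),(nat_lit 18364758544493064705)]) (a (r (nat_lit 9) (nat_lit 12816) (nat_lit 12816) [(nat_lit 18364758544493064720),(nat_lit 18364758544493064720),(nat_lit 18364758544493064720),(nat_lit 18364758544493064720)]) e))))))) = true := by decide +kernel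
theorem K1771 : checkNode 4 2 6 U [(0,C73),(1,C183),(2,C370),(3,C674),(4,C1304),(4,C1342),(5,C1759),(4,C1730),(4,C1758)] 3000 7 C1771 (k (a (k (a (k (a (k (a (k (a (k (a (k (a (t (nat_lit 24327501254928) (a (t (nat_lit 6687803126064) e) (a (t (nat_lit 6683508158768) e) (a (t (nat_lit 6679213191472) e) (a (t (nat_lit 25315076288816) e) (a (t (nat_lit 5588291498288) e) (a (t (nat_lit 5583996530992) e) (a (t (nat_lit 5579701563696) e) (a (t (nat_lit 25310781321520) e) (a (t (nat_lit 4488779870512) e) (a (t (nat_lit 4484484903216) e) (a (t (nat_lit 4480189935920) e) (a (t (nat_lit 25306486354224) e) (a (t (nat_lit 3389268242736) e) (a (t (nat_lit 3384973275440) e) (a (t (nat_lit 3380678308144) e) (a (t (nat_lit 25302191386928) e) (a (t (nat_lit 2289756614960) e) (a (t (nat_lit 2285461647664) e) (a (t (nat_lit 2281166680368) e) (a (t (nat_lit 25297896419632) e) (a (t (nat_lit 1190244987184) e) (a (t (nat_lit 1185950019888) e) (a (t (nat_lit 1181655052592) e) (a (t (nat_lit 25293601452336) e) (a (t (nat_lit 90733359408) e) (a (t (nat_lit 86438392112) e) (a (t (nat_lit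 82143424816) e) (a (t (nat_lit 25289306485040) e) (a (t (nat_lit 7787314753840) e) (a (t (nat_lit 7783019786544) e) (a (t (nat_lit 7778724819248) e) (a (t (nat_lit 7795904688432) e) e))))))))))))))))))))))))))))))))) (a (r (nat_lit 0) (nat_lit 12816) (nat_lit 12816) [(nat_lit 18364758544493064720),(nat_lit 18364758544493064720),(nat_lit 18364758544493064720),(nat_lit 18364758544493064720)]) (a (r (nat_lit 0) (nat_lit 8976) (nat_lit 8976) [(nat_lit 18364758544493064720),(nat_lit 18364758544493064720),(nat_lit 18364758544493064720),(nat_lit 18364758544493064720)]) (a (t (nat_lit 6692098093360) e) e))))) (a (r (nat_lit 1) (nat_lit 12816) (nat_lit 12816) [(nat_lit 18364758544493064720),(nat_lit 18364758544493064720),(nat_lit 18364758544493064720),(nat_lit 18364758544493064720)]) (a (r (nat_lit 1) (nat_lit 8976) (nat_lit 8976) [(nat_lit 18364758544493064720),(nat_lit 18364758544493064720),(nat_lit 18364758544493064720),(nat_lit 18364758544493064720)]) (a (t (nat_lit 5588291498288) e) e))))) (a (r (nat_lit 2) (nat_lit 12816) (nat_lit 12816) [(nat_lit 18364758544493064720),(nat_lit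 18364758544493064720),(nat_lit 18364758544493064720),(nat_lit 18364758544493064720)]) (a (r (nat_lit 2) (nat_lit 8976) (nat_lit 8976) [(nat_lit 18364758544493064720),(nat_lit 18364758544493064720),(nat_lit 18364758544493064720),(nat_lit 18364758544493064720)]) (a (t (nat_lit 4484484903216) e) e))))) (a (r (nat_lit 3) (nat_lit 12816) (nat_lit 12816) [(nat_lit 18364758544493064720),(nat_lit 18364758544493064720),(nat_lit 18364758544493064720),(nat_lit 18364758544493064720)]) (a (r (nat_lit 3) (nat_lit 8976) (nat_lit 8976) [(nat_lit 18364758544493064720),(nat_lit 18364758544493064720),(nat_lit 18364758544493064720),(nat_lit 18364758544493064720)]) (a (t (nat_lit 3380678308144) e) e))))) (a (r (nat_lit 4) (nat_lit 12816) (nat_lit 12816) [(nat_lit 18364758544493064720),(nat_lit 18364758544493064720),(nat_lit 18364758544493064720),(nat_lit 18364758544493064720)]) (a (r (nat_lit 4) (nat_lit 8976) (nat_lit 8976) [(nat_lit 18364758544493064720),(nat_lit 18364758544493064720),(nat_lit 18364758544493064720),(nat_lit 18364758544493064720)]) (a (r (nat_lit 5) (nat_lit 12816)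 (nat_lit 12816) [(nat_lit 18364758544493064720),(nat_lit 18364758544493064720),(nat_lit 18364758544493064720),(nat_lit 18364758544493064720)]) e))))) (a (r (nat_lit 6) (nat_lit 12816) (nat_lit 12816) [(nat_lit 18364758544493064720),(nat_lit 18364758544493064720),(nat_lit 18364758544493064720),(nat_lit 18364758544493064720)]) (a (r (nat_lit 6) (nat_lit 8976) (nat_lit 8976) [(nat_lit 18364758544493064720),(nat_lit 18364758544493064720),(nat_lit 18364758544493064720),(nat_lit 18364758544493064720)]) (a (k (a (r (nat_lit 5) (nat_lit 12816) (nat_lit 12816) [(nat_lit 18364758544493064225),(nat_lit 18364758544493064225),(nat_lit 18364758544493064705),(nat_lit 18364758544493064705)]) (a (r (nat_lit 7) (nat_lit 12816) (nat_lit 12816) [(nat_lit 18364758544493064480),(nat_lit 18364758544493064480),(nat_lit 18364758544493064720),(nat_lit 18364758544493064720)]) (a (r (nat_lit 8) (nat_lit 8976) (nat_lit 8976) [(nat_lit 18364758544493064225),(nat_lit 18364758544493064225),(nat_lit 18364758544493064705),(nat_lit 18364758544493064225)]) (a (r (nat_lit 7) (nat_lit 8976) (nat_lit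 8976) [(nat_lit 18364758544493064480),(nat_lit 18364758544493064480),(nat_lit 18364758544493064720),(nat_lit 18364758544493064720)]) (a (r (nat_lit 5) (nat_lit 12816) (nat_lit 12816) [(nat_lit 18364758544493064480),(nat_lit 18364758544493064480),(nat_lit 18364758544493064720),(nat_lit 18364758544493064720)]) (a (r (nat_lit 8) (nat_lit 8976) (nat_lit 8976) [(nat_lit 18364758544493064480),(nat_lit 18364758544493064480),(nat_lit 18364758544493064720),(nat_lit 18364758544493064480)]) (a (r (nat_lit 8) (nat_lit 12816) (nat_lit 12816) [(nat_lit 18364758544493064225),(nat_lit 18364758544493064225),(nat_lit 18364758544493064705),(nat_lit 18364758544493064225)]) (a (r (nat_lit 8) (nat_lit 12816) (nat_lit 12816) [(nat_lit 18364758544493064480),(nat_lit 18364758544493064480),(nat_lit 18364758544493064720),(nat_lit 18364758544493064480)]) e))))))))) e))))) e)) = true := by decide +kernel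

end Vale.Agent.Lib.P045.R42
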