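import Vale.Agent.Lib.P045.Konig
import Vale.Agent.Lib.P045.R42.K0

set_option maxRecDepth 100000

namespace Vale.Agent.Lib.P045.R42

open Vale.Agent.Lib.P045

universe u

theorem R73 : RefK.{u} 4 2 6 0 C73 := chk_sound2 K73 rfl (trivial)
theorem R117 : RefK.{u} 4 2 6 0 C117 := chk_sound2 K117 rfl (trivial)
theorem R167 : RefK.{u} 4 2 6 0 C167 := chk_sound2 K167 rfl (trivial)
theorem R181 : RefK.{u} 4 2 6 0 C181 := chk_sound2 K181 rfl (trivial)
theorem R183 : RefK.{u} 4 2 6 1 C183 := chk_sound2 K183 rfl (And.intro R117 (And.intro R73 (And.intro R167 (And.intro R181 (trivial)))))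
theorem R227 : RefK.{u} 4 2 6 0 C227 := chk_sound2 K227 rfl (trivial)
theorem R277 : RefK.{u} 4 2 6 0 C277 := chk_sound2 K277 rfl (trivial)
theorem R281 : RefK.{u} 4 2 6 0 C281 := chk_sound2 K281 rfl (trivial)
theorem R283 : RefK.{u} 4 2 6 1 C283 := chk_sound2 K283 rfl (And.intro R227 (And.intro R117 (And.intro R277 (And.intro R281 (trivial)))))
theorem R344 : RefK.{u} 4 2 6 0 C344 := chk_sound2 K344 rfl (trivial)
theorem R356 : RefK.{u} 4 2 6 0 C356 := chk_sound2 K356 rfl (trivial)
theorem R358 : RefK.{u} 4 2 6 1 C358 := chk_sound2 K358 rfl (And.intro R277 (And.intro R167 (And.intro R344 (And.intro R356 (trivial)))))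
theorem R368 : RefK.{u} 4 2 6 1 C368 := chk_sound2 K368 rfl (And.intro R281 (And.intro R181 (And.intro R356 (trivial))))
theorem R370 : RefK.{u} 4 2 6 2 C370 := chk_sound2 K370 rfl (And.intro R283 (And.intro R183 (And.intro R358 (And.intro R368 (trivial)))))
theorem R424 : RefK.{u} 4 2 6 0 C424 := chk_sound2 K424 rfl (trivial)
theorem R478 : RefK.{u} 4 2 6 0 C478 := chk_sound2 K478 rfl (trivial)
theorem R537 : RefK.{u} 4 2 6 0 C537 := chk_sound2 K537 rfl (trivial)
theorem R542 : RefK.{u} 4 2 6 0 C542 := chk_sound2 K542 rfl (trivial)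
theorem R544 : RefK.{u} 4 2 6 1 C544 := chk_sound2 K544 rfl (And.intro R478 (And.intro R424 (And.intro R277 (And.intro R537 (And.intro R542 (trivial))))))
theorem R551 : RefK.{u} 4 2 6 0 C551 := chk_sound2 K551 rfl (trivial)
theorem R556 : RefK.{u} 4 2 6 0 C556 := chk_sound2 K556 rfl (trivial)
theorem R559 : RefK.{u} 4 2 6 1 C559 := chk_sound2 K559 rfl (And.intro R551 (And.intro R281 (And.intro R556 (And.intro R542 (trivial)))))
theorem R561 : RefK.{u} 4 2 6 2 C561 := chk_sound2 K561 rfl (And.intro R227 (And.intro R424 (And.intro R283 (And.intro R544 (And.intro R559 (trivial))))))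
theorem R634 : RefK.{u} 4 2 6 0 C634 := chk_sound2 K634 rfl (trivial)
theorem R642 : RefK.{u} 4 2 6 0 C642 := chk_sound2 K642 rfl (trivial)
theorem R644 : RefK.{u} 4 2 6 1 C644 := chk_sound2 K644 rfl (And.intro R537 (And.intro R344 (And.intro R634 (And.intro R642 (trivial)))))
theorem R655 : RefK.{u} 4 2 6 0 C655 := chk_sound2 K655 rfl (trivial)
theorem R660 : RefK.{u} 4 2 6 1 C660 := chk_sound2 K660 rfl (And.intro R542 (And.intro R556 (And.intro R356 (And.intro R655 (And.intro R642 (trivial))))))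
theorem R662 : RefK.{u} 4 2 6 2 C662 := chk_sound2 K662 rfl (And.intro R544 (And.intro R358 (And.intro R644 (And.intro R660 (trivial)))))
theorem R672 : RefK.{u} 4 2 6 2 C672 := chk_sound2 K672 rfl (And.intro R559 (And.intro R368 (And.intro R660 (trivial))))
theorem R674 : RefK.{u} 4 2 6 3 C674 := chk_sound2 K674 rfl (And.intro R561 (And.intro R370 (And.intro R662 (And.intro R672 (trivial)))))
theorem R739 : RefK.{u} 4 2 6 0 C739 := chk_sound2 K739 rfl (trivial)
theorem R742 : RefK.{u} 4 2 6 0 C742 := chk_sound2 K742 rfl (trivial)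
theorem R744 : RefK.{u} 4 2 6 0 C744 := chk_sound2 K744 rfl (And.intro R742 (trivial))
theorem R819 : RefK.{u} 4 2 6 0 C819 := chk_sound2 K819 rfl (trivial)
theorem R825 : RefK.{u} 4 2 6 1 C825 := chk_sound2 K825 rfl (And.intro R739 (And.intro R537 (And.intro R819 (trivial))))
theorem R831 : RefK.{u} 4 2 6 0 C831 := chk_sound2 K831 rfl (trivial)
theorem R838 : RefK.{u} 4 2 6 1 C838 := chk_sound2 K838 rfl (And.intro R744 (And.intro R831 (trivial)))
theorem R846 : RefK.{u} 4 2 6 0 C846 := chk_sound2 K846 rfl (trivial)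
theorem R851 : RefK.{u} 4 2 6 1 C851 := chk_sound2 K851 rfl (And.intro R744 (And.intro R542 (And.intro R846 (trivial))))
theorem R854 : RefK.{u} 4 2 6 2 C854 := chk_sound2 K854 rfl (And.intro R478 (And.intro R739 (And.intro R744 (And.intro R544 (And.intro R825 (And.intro R838 (And.intro R851 (trivial))))))))
theorem R865 : RefK.{u} 4 2 6 1 C865 := chk_sound2 K865 rfl (And.intro R551 (trivial))
theorem R874 : RefK.{u} 4 2 6 0 C874 := chk_sound2 K874 rfl (trivial)
theorem R880 : RefK.{u} 4 2 6 1 C880 := chk_sound2 K880 rfl (And.intro R556 (And.intro R874 (And.intro R846 (trivial))))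
theorem R891 : RefK.{u} 4 2 6 1 C891 := chk_sound2 K891 rfl (trivial)
theorem R900 : RefK.{u} 4 2 6 1 C900 := chk_sound2 K900 rfl (trivial)
theorem R902 : RefK.{u} 4 2 6 2 C902 := chk_sound2 K902 rfl (And.intro R865 (And.intro R559 (And.intro R880 (And.intro R891 (And.intro R900 (And.intro R851 (trivial)))))))
theorem R914 : RefK.{u} 4 2 6 1 C914 := chk_sound2 K914 rfl (trivial)
theorem R925 : RefK.{u} 4 2 6 0 C925 := chk_sound2 K925 rfl (trivial)
theorem R927 : RefK.{u} 4 2 6 0 C927 := chk_sound2 K927 rfl (And.intro R925 (trivial))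
theorem R931 : RefK.{u} 4 2 6 1 C931 := chk_sound2 K931 rfl (And.intro R831 (And.intro R927 (trivial)))
theorem R943 : RefK.{u} 4 2 6 0 C943 := chk_sound2 K943 rfl (trivial)
theorem R945 : RefK.{u} 4 2 6 0 C945 := chk_sound2 K945 rfl (And.intro R943 (trivial))
theorem R947 : RefK.{u} 4 2 6 0 C947 := chk_sound2 K947 rfl (And.intro R945 (trivial))
theorem R951 : RefK.{u} 4 2 6 1 C951 := chk_sound2 K951 rfl (And.intro R947 (trivial))
theorem R954 : RefK.{u} 4 2 6 2 C954 := chk_sound2 K954 rfl (And.intro R914 (And.intro R838 (And.intro R931 (And.intro R900 (And.intro R951 (trivial))))))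
theorem R1097 : RefK.{u} 4 2 6 0 C1097 := chk_sound2 K1097 rfl (trivial)
theorem R1104 : RefK.{u} 4 2 6 1 C1104 := chk_sound2 K1104 rfl (And.intro R819 (And.intro R634 (And.intro R1097 (trivial))))
theorem R1118 : RefK.{u} 4 2 6 0 C1118 := chk_sound2 K1118 rfl (trivial)
theorem R1125 : RefK.{u} 4 2 6 1 C1125 := chk_sound2 K1125 rfl (And.intro R874 (And.intro R642 (And.intro R1118 (trivial))))
theorem R1127 : RefK.{u} 4 2 6 2 C1127 := chk_sound2 K1127 rfl (And.intro R825 (And.intro R644 (And.intro R1104 (And.intro R1125 (trivial)))))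
theorem R1139 : RefK.{u} 4 2 6 1 C1139 := chk_sound2 K1139 rfl (trivial)
theorem R1146 : RefK.{u} 4 2 6 0 C1146 := chk_sound2 K1146 rfl (trivial)
theorem R1150 : RefK.{u} 4 2 6 1 C1150 := chk_sound2 K1150 rfl (And.intro R846 (And.intro R1146 (And.intro R831 (trivial))))
theorem R1159 : RefK.{u} 4 2 6 1 C1159 := chk_sound2 K1159 rfl (trivial)
theorem R1165 : RefK.{u} 4 2 6 2 C1165 := chk_sound2 K1165 rfl (And.intro R1139 (And.intro R851 (And.intro R1150 (And.intro R1159 (And.intro R838 (trivial))))))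
theorem R1178 : RefK.{u} 4 2 6 1 C1178 := chk_sound2 K1178 rfl (And.intro R846 (And.intro R655 (And.intro R1118 (trivial))))
theorem R1183 : RefK.{u} 4 2 6 2 C1183 := chk_sound2 K1183 rfl (And.intro R851 (And.intro R880 (And.intro R660 (And.intro R1178 (And.intro R1125 (trivial))))))
theorem R1185 : RefK.{u} 4 2 6 3 C1185 := chk_sound2 K1185 rfl (And.intro R854 (And.intro R662 (And.intro R1127 (And.intro R1165 (And.intro R1183 (trivial))))))
theorem R1194 : RefK.{u} 4 2 6 2 C1194 := chk_sound2 K1194 rfl (And.intro R865 (And.intro R1139 (trivial)))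
theorem R1210 : RefK.{u} 4 2 6 1 C1210 := chk_sound2 K1210 rfl (And.intro R874 (And.intro R1146 (trivial)))
theorem R1216 : RefK.{u} 4 2 6 2 C1216 := chk_sound2 K1216 rfl (And.intro R1139 (And.intro R880 (And.intro R1210 (And.intro R1150 (trivial)))))
theorem R1227 : RefK.{u} 4 2 6 2 C1227 := chk_sound2 K1227 rfl (And.intro R891 (And.intro R900 (trivial)))
theorem R1236 : RefK.{u} 4 2 6 2 C1236 := chk_sound2 K1236 rfl (And.intro R1159 (And.intro R900 (trivial)))
theorem R1238 : RefK.{u} 4 2 6 3 C1238 := chk_sound2 K1238 rfl (And.intro R1194 (And.intro R902 (And.intro R1216 (And.intro R1227 (And.intro R1236 (And.intro R1165 (trivial)))))))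
theorem R1247 : RefK.{u} 4 2 6 3 C1247 := chk_sound2 K1247 rfl (And.intro R902 (And.intro R1227 (And.intro R672 (And.intro R1183 (trivial)))))
theorem R1257 : RefK.{u} 4 2 6 2 C1257 := chk_sound2 K1257 rfl (And.intro R1139 (And.intro R914 (trivial)))
theorem R1270 : RefK.{u} 4 2 6 1 C1270 := chk_sound2 K1270 rfl (And.intro R1146 (And.intro R927 (trivial)))
theorem R1274 : RefK.{u} 4 2 6 2 C1274 := chk_sound2 K1274 rfl (And.intro R1150 (And.intro R1270 (And.intro R931 (trivial))))
theorem R1296 : RefK.{u} 4 2 6 1 C1296 := chk_sound2 K1296 rfl (And.intro R947 (trivial))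
theorem R1300 : RefK.{u} 4 2 6 2 C1300 := chk_sound2 K1300 rfl (And.intro R951 (And.intro R1296 (trivial)))
theorem R1303 : RefK.{u} 4 2 6 3 C1303 := chk_sound2 K1303 rfl (And.intro R1257 (And.intro R1165 (And.intro R1274 (And.intro R1236 (And.intro R954 (And.intro R1227 (And.intro R1300 (trivial))))))))
theorem R1304 : RefK.{u} 4 2 6 4 C1304 := chk_sound2 K1304 rfl (And.intro R561 (And.intro R854 (And.intro R902 (And.intro R954 (And.intro R674 (And.intro R1185 (And.intro R1238 (And.intro R1247 (And.intro R1303 (trivial))))))))))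
theorem R1330 : RefK.{u} 4 2 6 2 C1330 := chk_sound2 K1330 rfl (And.intro R1210 (And.intro R1296 (And.intro R1270 (trivial))))
theorem R1336 : RefK.{u} 4 2 6 3 C1336 := chk_sound2 K1336 rfl (And.intro R1257 (And.intro R1216 (And.intro R1330 (And.intro R1236 (And.intro R1300 (And.intro R1274 (trivial)))))))
theorem R1342 : RefK.{u} 4 2 6 4 C1342 := chk_sound2 K1342 rfl (And.intro R1194 (And.intro R1257 (And.intro R1238 (And.intro R1336 (And.intro R1303 (trivial))))))
theorem R1581 : RefK.{u} 4 2 6 0 C1581 := chk_sound2 K1581 rfl (trivial)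
theorem R1586 : RefK.{u} 4 2 6 1 C1586 := chk_sound2 K1586 rfl (And.intro R1146 (And.intro R1118 (And.intro R1581 (trivial))))
theorem R1595 : RefK.{u} 4 2 6 2 C1595 := chk_sound2 K1595 rfl (And.intro R1210 (And.intro R1125 (And.intro R1586 (trivial))))
theorem R1610 : RefK.{u} 4 2 6 2 C1610 := chk_sound2 K1610 rfl (And.intro R1150 (And.intro R1178 (And.intro R1586 (trivial))))
theorem R1619 : RefK.{u} 4 2 6 2 C1619 := chk_sound2 K1619 rfl (And.intro R1159 (trivial))
theorem R1640 : RefK.{u} 4 2 6 1 C1640 := chk_sound2 K1640 rfl (trivial)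
theorem R1644 : RefK.{u} 4 2 6 2 C1644 := chk_sound2 K1644 rfl (And.intro R1640 (trivial))
theorem R1647 : RefK.{u} 4 2 6 3 C1647 := chk_sound2 K1647 rfl (And.intro R1216 (And.intro R1183 (And.intro R1610 (And.intro R1619 (And.intro R1165 (And.intro R1644 (And.intro R1595 (trivial))))))))
theorem R1669 : RefK.{u} 4 2 6 2 C1669 := chk_sound2 K1669 rfl (And.intro R1270 (And.intro R1586 (And.intro R1581 (trivial))))
theorem R1700 : RefK.{u} 4 2 6 2 C1700 := chk_sound2 K1700 rfl (And.intro R1296 (And.intro R1640 (trivial)))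
theorem R1704 : RefK.{u} 4 2 6 3 C1704 := chk_sound2 K1704 rfl (And.intro R1330 (And.intro R1595 (And.intro R1669 (And.intro R1644 (And.intro R1700 (trivial))))))
theorem R1727 : RefK.{u} 4 2 6 3 C1727 := chk_sound2 K1727 rfl (And.intro R1619 (And.intro R1236 (And.intro R1227 (And.intro R1644 (trivial)))))
theorem R1730 : RefK.{u} 4 2 6 4 C1730 := chk_sound2 K1730 rfl (And.intro R1238 (And.intro R1247 (And.intro R1647 (And.intro R1619 (And.intro R1727 (trivial))))))
theorem R1758 : RefK.{u} 4 2 6 4 C1758 := chk_sound2 K1758 rfl (And.intro R1336 (And.intro R1647 (And.intro R1274 (And.intro R1610 (And.intro R1669 (And.intro R1727 (And.intro R1303 (And.intro R1300 (And.intro R1644 (And.intro R1700 (And.intro R1704 (trivial))))))))))))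
theorem R1759 : RefK.{u} 4 2 6 5 C1759 := chk_sound2 K1759 rfl (And.intro R1304 (And.intro R1185 (And.intro R1127 (And.intro R1104 (And.intro R1097 (And.intro R1595 (And.intro R1647 (And.intro R1704 (And.intro R1730 (And.intro R1758 (trivial)))))))))))
theorem R1771 : RefK.{u} 4 2 6 7 C1771 := chk_sound2 K1771 rfl (And.intro R73 (And.intro R183 (And.intro R370 (And.intro R674 (And.intro R1304 (And.intro R1342 (And.intro R1759 (And.intro R1730 (And.intro R1758 (trivial))))))))))

theorem root : RefK.{u} 4 2 6 7 [] := R1771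

end Vale.Agent.Lib.P045.R42
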